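import Crest.Agent.Lib.Saxl.TableData.Seeds

/-! # The table of the universal shapes of the family (row 195, S0298): a generated part -/

set_option autoImplicit false
set_option maxRecDepth 100000

namespace Crest.Agent.Saxl.Table.Data

open Crest.Agent.Saxl Crest.Agent.Saxl.Family Crest.Agent.Saxl.Table

/-- Hooks [9 5 1]. -/
def L15 : List BK := stepL false (baseL 1 0)

theorem U15 : UL L15 := UL.step (ub 1 0 (by decide) (by decide)) false 15 5
    [.dom [3,6,8,10,12,13,14,15]] 3
    (by decide +kernel) (by decide +kernel)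

/-- Hooks [11 7 3]. -/
def L21 : List BK := stepL false (baseL 2 0)

theorem U21 : UL L21 := UL.step (ub 2 0 (by decide) (by decide)) false 21 6
    [.dom [3,6,9,11,13,15,17,18,19,20,21]] 3
    (by decide +kernel) (by decide +kernel)

/-- Hooks [13 9 5]. -/
def L27 : List BK := stepL false (baseL 3 3)

theorem U27 : UL L27 := UL.step (ub 3 3 (by decide) (by decide)) false 27 7
    [.dom [6,11,15,18,21,24,25,26,27]] 3
    (by decide +kernel) (by decide +kernel)

/-- Hooks [13 9 5 1]. -/
def L28 : List BK := stepL false (baseL 3 0)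

theorem U28 : UL L28 := UL.step (ub 3 0 (by decide) (by decide)) false 28 7
    [.dom [4,7,10,13,16,19,21,23,25,26,27,28]] 3
    (by decide +kernel) (by decide +kernel)

/-- Hooks [13 9 5 3]. -/
def L30 : List BK := stepL false (baseL 3 2)

theorem U30 : UL L30 := UL.step (ub 3 2 (by decide) (by decide)) false 30 7
    [.s1 1 5 [4,8,11,14,17,18,19,20]] 3
    (by decide +kernel) (by decide +kernel)

/-- Hooks [15 11 5]. -/
def L31 : List BK := stepL true (baseL 3 3)

theorem U31 : UL L31 := UL.stepOne (ub 3 3 (by decide) (by decide)) true u11_5 (by decide +kernel) (by decide +kernel) 31 8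
    [.dom [6,11,15,19,23,27,30,31],
    .s2 2 3 [5,9,13,17,21,24,25],
    .st [2,3] [3,2] 4 [5,9,13,17,20,21]] 3
    (by decide +kernel) (by decide +kernel)

/-- Hooks [15 11 5 1]. -/
def L32 : List BK := stepL true (baseL 3 0)

theorem U32 : UL L32 := UL.step (ub 3 0 (by decide) (by decide)) true 32 8
    [.dom [4,8,12,16,19,22,25,27,29,31,32]] 3
    (by decide +kernel) (by decide +kernel)

/-- Hooks [15 11 7 1]. -/
def L34 : List BK := stepL false (baseL 0 2)

theorem U34 : UL L34 := UL.step (ub 0 2 (by decide) (by decide)) false 34 8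
    [.dom [6,12,16,20,24,28,31,32,33,34]] 3
    (by decide +kernel) (by decide +kernel)

/-- Hooks [15 11 7 3]. -/
def L36 : List BK := stepL false (baseL 0 0)

theorem U36 : UL L36 := UL.step (ub 0 0 (by decide) (by decide)) false 36 8
    [.dom [4,8,12,15,18,21,24,26,28,30,32,33,34,35,36]] 3
    (by decide +kernel) (by decide +kernel)

/-- Hooks [15 11 7 3 1]. -/
def L37 : List BK := stepL false (baseL 0 1)

theorem U37 : UL L37 := UL.step (ub 0 1 (by decide) (by decide)) false 37 8
    [.s1 2 5 [6,10,14,18,21,24,25,26,27]] 3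
    (by decide +kernel) (by decide +kernel)

/-- Hooks [17 13 7 1]. -/
def L38 : List BK := stepL true (baseL 0 2)

theorem U38 : UL L38 := UL.step (ub 0 2 (by decide) (by decide)) true 38 9
    [.dom [6,12,17,21,25,29,33,37,38],
    .s2 3 3 [6,11,15,19,23,27,31,32],
    .st [3,4] [3,2] 4 [6,11,15,19,23,27,28]] 4
    (by decide +kernel) (by decide +kernel)

/-- Hooks [15 11 7 5 1]. -/
def L39 : List BK := stepL false (baseL 0 3)

theorem U39 : UL L39 := UL.step (ub 0 3 (by decide) (by decide)) false 39 8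
    [.s1 1 6 [4,8,12,15,18,20,22,24,25,26,27]] 3
    (by decide +kernel) (by decide +kernel)

/-- Hooks [17 13 7 3]. -/
def L40 : List BK := stepL true (baseL 0 0)

theorem U40 : UL L40 := UL.step (ub 0 0 (by decide) (by decide)) true 40 9
    [.dom [5,9,13,17,21,24,27,30,32,34,36,38,39,40]] 3
    (by decide +kernel) (by decide +kernel)

/-- Hooks [17 13 7 3 1]. -/
def L41 : List BK := stepL true (baseL 0 1)

theorem U41 : UL L41 := UL.step (ub 0 1 (by decide) (by decide)) true 41 9
    [.s1 2 5 [6,11,15,19,23,27,30,31],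
    .s2 2 5 [6,11,15,19,23,27,30,31],
    .st [2,4] [5,2] 8 [6,11,15,19,23,26,27]] 3
    (by decide +kernel) (by decide +kernel)

/-- Hooks [17 13 9 3]. -/
def L42 : List BK := stepL false (baseL 1 1)

theorem U42 : UL L42 := UL.step (ub 1 1 (by decide) (by decide)) false 42 9
    [.dom [7,13,18,22,26,30,33,35,37,39,40,41,42]] 3
    (by decide +kernel) (by decide +kernel)

/-- Hooks [17 13 7 5 1]. -/
def L43 : List BK := stepL true (baseL 0 3)

theorem U43 : UL L43 := UL.step (ub 0 3 (by decide) (by decide)) true 43 9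
    [.s1 1 6 [5,9,13,17,21,24,26,28,30,31]] 3
    (by decide +kernel) (by decide +kernel)

/-- Hooks [17 13 9 5]. -/
def L44 : List BK := stepL false (baseL 1 3)

theorem U44 : UL L44 := UL.step (ub 1 3 (by decide) (by decide)) false 44 9
    [.dom [8,13,17,21,25,29,32,35,38,41,42,43,44],
    .s1 2 4 [5,9,13,17,21,24,27,30,33,34,35,36]] 3
    (by decide +kernel) (by decide +kernel)

/-- Hooks [17 13 9 5 1]. -/
def L45 : List BK := stepL false L15

theorem U45 : UL L45 := UL.step U15 false 45 9
    [.dom [5,10,14,18,22,26,29,32,35,37,39,41,42,43,44,45]] 3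
    (by decide +kernel) (by decide +kernel)

/-- Hooks [19 15 9 3]. -/
def L46 : List BK := stepL true (baseL 1 1)

theorem U46 : UL L46 := UL.step (ub 1 1 (by decide) (by decide)) true 46 10
    [.dom [7,13,18,23,28,32,36,39,41,43,45,46],
    .s2 3 3 [7,12,17,22,26,30,33,35,37,39,40]] 3
    (by decide +kernel) (by decide +kernel)

/-- Hooks [17 13 9 5 3]. -/
def L47 : List BK := stepL false (baseL 1 2)

theorem U47 : UL L47 := UL.step (ub 1 2 (by decide) (by decide)) false 47 9
    [.s1 2 6 [7,12,17,21,25,29,32,33,34,35],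
    .ab 2 6 6 6 [7,12,17,21,25,29,32,33,34,35]] 4
    (by decide +kernel) (by decide +kernel)

/-- Hooks [19 15 9 5]. -/
def L48 : List BK := stepL true (baseL 1 3)

theorem U48 : UL L48 := UL.step (ub 1 3 (by decide) (by decide)) true 48 10
    [.dom [8,13,18,23,27,31,35,38,41,44,47,48],
    .s1 2 4 [5,10,15,19,23,27,30,33,36,39,40],
    .s2 2 4 [5,10,15,19,23,27,30,33,36,39,40]] 3
    (by decide +kernel) (by decide +kernel)

/-- Hooks [19 15 9 5 1]. -/
def L49 : List BK := stepL true L15

theorem U49 : UL L49 := UL.step U15 true 49 10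
    [.dom [5,10,15,20,24,28,32,35,38,41,43,45,47,48,49]] 3
    (by decide +kernel) (by decide +kernel)

/-- Hooks [19 15 11 5]. -/
def L50 : List BK := stepL false l11_5

theorem U50 : UL L50 := UL.step u11_5 false 50 10
    [.dom [8,16,22,28,33,38,43,47,48,49,50],
    .s1 3 4 [8,14,20,25,30,35,39,40,41,42],
    .st [3] [4] 6 [8,14,20,25,30,35,39,40,41,42],
    .s2 3 4 [8,14,20,25,30,35,39,40,41,42],
    .ab 3 4 4 4 [8,14,20,25,30,35,39,40,41,42],
    .st [3,4] [4,3] 8 [8,14,19,24,29,33,34,35,36]] 6
    (by decide +kernel) (by decide +kernel)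

/-- Hooks [19 15 9 5 3]. -/
def L51 : List BK := stepL true (baseL 1 2)

theorem U51 : UL L51 := UL.step (ub 1 2 (by decide) (by decide)) true 51 10
    [.s1 2 6 [7,12,17,22,27,31,35,38,39],
    .s2 2 6 [7,12,17,22,27,31,35,38,39],
    .st [2,5] [6,2] 10 [7,12,17,22,27,31,34,35]] 3
    (by decide +kernel) (by decide +kernel)

/-- Hooks [19 15 11 7 1]. -/
def L53 : List BK := stepL false (baseL 2 2)

theorem U53 : UL L53 := UL.step (ub 2 2 (by decide) (by decide)) false 53 10
    [.dom [8,13,18,23,28,32,36,40,44,47,50,51,52,53]] 3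
    (by decide +kernel) (by decide +kernel)

end Crest.Agent.Saxl.Table.Data
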