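import Crest.Agent.Lib.Saxl.TableData.Seeds
import Crest.Agent.Lib.Saxl.TableData.T00

/-! # The table of the universal shapes of the family (row 195, S0298): a generated part -/

set_option autoImplicit false
set_option maxRecDepth 100000

namespace Crest.Agent.Saxl.Table.Data

open Crest.Agent.Saxl Crest.Agent.Saxl.Family Crest.Agent.Saxl.Table

/-- Hooks [19 15 9 7 3 1]. -/
def L54 : List BK := stepL true Kron.S_5_5_4_4_2.l

theorem U54 : UL L54 := UL.step u9_7_3_1 true 54 10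
    [.eta [1,2] [7,6] [[8,6],[9,9,7,1]] [5,10,15,19,23,27,28],
    .eta [1,2] [7,6] [[10,4],[10,8,8]] [5,10,15,19,23,27,28],
    .eta [1,2] [7,6] [[10,4],[10,8,6,2]] [5,10,15,19,23,27,28],
    .eta [1,2] [7,6] [[8,6],[8,8,8,2]] [5,10,15,19,23,27,28],
    .eta [1,2] [7,6] [[12,2],[12,7,6,1]] [5,10,15,19,23,27,28],
    .eta [1,2] [7,6] [[10,4],[11,8,7]] [5,10,15,19,23,27,28],
    .eta [1,2] [7,6] [[10,4],[10,7,6,3]] [5,10,15,19,23,27,28],
    .eta [1,2] [7,6] [[10,4],[11,7,7,1]] [5,10,15,19,23,27,28],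
    .eta [1,2] [7,6] [[8,6],[9,8,7,2]] [5,10,15,19,23,27,28],
    .eta [1,2] [7,6] [[12,2],[12,6,6,2]] [5,10,15,19,23,27,28],
    .eta [1,2] [7,6] [[10,4],[12,7,4,3]] [5,10,15,19,23,27,28],
    .eta [1,2] [7,6] [[10,4],[11,11,3,1]] [5,10,15,19,23,27,28],
    .eta [1,2] [7,6] [[10,4],[14,5,4,3]] [5,10,15,19,23,27,28],
    .eta [1,2] [7,6] [[12,2],[14,6,4,2]] [5,10,15,19,23,27,28],
    .eta [1,2] [7,6] [[12,2],[13,6,5,2]] [5,10,15,19,23,27,28],
    .ab 1 7 8 6 [12,17,22,27,31,35,39,40],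
    .ab 1 7 10 4 [12,17,22,27,31,35,39,40],
    .s1 1 7 [12,17,22,27,31,35,39,40],
    .s2 1 7 [12,17,22,27,31,35,39,40]] 27
    (by decide +kernel) (by decide +kernel)

/-- Hooks [19 15 11 7 3]. -/
def L55 : List BK := stepL false L21

theorem U55 : UL L55 := UL.step U21 false 55 10
    [.dom [5,10,15,19,23,27,31,34,37,40,43,45,47,49,51,52,53,54,55]] 3
    (by decide +kernel) (by decide +kernel)

/-- Hooks [19 15 11 7 3 1]. -/
def L56 : List BK := stepL false (baseL 2 1)

theorem U56 : UL L56 := UL.step (ub 2 1 (by decide) (by decide)) false 56 10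
    [.s1 2 6 [5,10,15,19,23,27,31,34,36,38,40,41,42,43,44]] 3
    (by decide +kernel) (by decide +kernel)

/-- Hooks [21 17 11 7 1]. -/
def L57 : List BK := stepL true (baseL 2 2)

theorem U57 : UL L57 := UL.step (ub 2 2 (by decide) (by decide)) true 57 11
    [.dom [8,14,19,24,29,34,38,42,46,50,53,56,57],
    .s2 3 4 [6,11,16,21,26,30,34,38,42,45,48,49],
    .st [3,5] [4,2] 6 [6,11,16,21,26,30,34,38,41,44,45]] 3
    (by decide +kernel) (by decide +kernel)

/-- Hooks [19 15 11 7 5 1]. -/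
def L58 : List BK := stepL false (baseL 2 3)

theorem U58 : UL L58 := UL.step (ub 2 3 (by decide) (by decide)) false 58 10
    [.s1 2 7 [8,13,18,23,27,30,33,36,39,41,42,43,44],
    .ab 2 7 8 6 [8,13,18,23,27,30,33,36,39,41,42,43,44]] 5
    (by decide +kernel) (by decide +kernel)

/-- Hooks [21 17 11 7 3]. -/
def L59 : List BK := stepL true L21

theorem U59 : UL L59 := UL.step U21 true 59 11
    [.dom [6,11,16,21,25,29,33,37,40,43,46,49,51,53,55,57,58,59]] 3
    (by decide +kernel) (by decide +kernel)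

/-- Hooks [21 17 11 7 3 1]. -/
def L60 : List BK := stepL true (baseL 2 1)

theorem U60 : UL L60 := UL.step (ub 2 1 (by decide) (by decide)) true 60 11
    [.s1 2 6 [6,11,16,21,25,29,33,37,40,42,44,46,47,48],
    .dom [12,18,23,28,33,37,41,45,49,52,54,56,58,59,60]] 3
    (by decide +kernel) (by decide +kernel)

/-- Hooks [21 17 11 9 3]. -/
def L61 : List BK := stepL true Kron.S_6_6_4_3_2_2.l

theorem U61 : UL L61 := UL.step u11_9_3 true 61 11
    [.s1 1 8 [8,14,19,24,29,33,36,39,42,44,45],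
    .ab 1 8 10 6 [8,14,19,24,29,33,36,39,42,44,45],
    .s2 1 8 [8,14,19,24,29,33,36,39,42,44,45],
    .ab 1 8 8 8 [8,14,19,24,29,33,36,39,42,44,45]] 25
    (by decide +kernel) (by decide +kernel)

/-- Hooks [21 17 11 7 5 1]. -/
def L62 : List BK := stepL true (baseL 2 3)

theorem U62 : UL L62 := UL.step (ub 2 3 (by decide) (by decide)) true 62 11
    [.s1 2 7 [8,14,19,24,29,33,36,39,42,45,47,48],
    .ab 2 7 8 6 [8,14,19,24,29,33,36,39,42,45,47,48],
    .s2 2 7 [8,14,19,24,29,33,36,39,42,45,47,48]] 4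
    (by decide +kernel) (by decide +kernel)

/-- Hooks [21 17 13 9 3]. -/
def L63 : List BK := stepL false (baseL 3 1)

theorem U63 : UL L63 := UL.step (ub 3 1 (by decide) (by decide)) false 63 11
    [.dom [8,14,19,24,29,34,38,42,46,49,52,55,58,60,61,62,63]] 3
    (by decide +kernel) (by decide +kernel)

/-- Hooks [21 17 13 9 3 1]. -/
def L64 : List BK := stepL false Kron.S_7_6_4_4_2_2_1.l

theorem U64 : UL L64 := UL.step u13_9_3_1 false 64 11
    [.s1 2 6 [8,14,19,24,29,34,38,42,46,49,50,51,52],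
    .dom [12,20,26,31,36,41,46,50,54,58,61,62,63,64],
    .ab 2 6 6 6 [8,14,19,24,29,34,38,42,46,49,50,51,52]] 4
    (by decide +kernel) (by decide +kernel)

/-- Hooks [21 17 13 9 5]. -/
def L65 : List BK := stepL false L27

theorem U65 : UL L65 := UL.step U27 false 65 11
    [.dom [10,17,23,28,33,38,43,47,51,55,57,59,61,62,63,64,65],
    .s1 3 5 [7,13,18,23,28,33,37,41,45,47,49,51,52,53,54,55]] 3
    (by decide +kernel) (by decide +kernel)

end Crest.Agent.Saxl.Table.Data
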