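import Crest.Agent.Lib.Saxl.TableData.Seeds
import Crest.Agent.Lib.Saxl.TableData.T00

/-! # The table of the universal shapes of the family (row 195, S0298): a generated part -/

set_option autoImplicit false
set_option maxRecDepth 100000

namespace Crest.Agent.Saxl.Table.Data

open Crest.Agent.Saxl Crest.Agent.Saxl.Family Crest.Agent.Saxl.Table

/-- Hooks [21 17 13 9 5 1]. -/
def L66 : List BK := stepL false L28

theorem U66 : UL L66 := UL.step U28 false 66 11
    [.dom [6,11,16,21,26,31,35,39,43,47,50,53,56,58,60,62,63,64,65,66]] 3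
    (by decide +kernel) (by decide +kernel)

/-- Hooks [23 19 13 9 3]. -/
def L67 : List BK := stepL true (baseL 3 1)

theorem U67 : UL L67 := UL.step (ub 3 1 (by decide) (by decide)) true 67 12
    [.dom [8,14,20,26,31,36,40,44,48,52,55,58,61,64,66,67]] 3
    (by decide +kernel) (by decide +kernel)

/-- Hooks [21 17 13 9 5 3]. -/
def L68 : List BK := stepL false L30

theorem U68 : UL L68 := UL.step U30 false 68 11
    [.s1 2 7 [6,12,17,22,27,32,36,40,44,46,48,50,51,52,53,54]] 3
    (by decide +kernel) (by decide +kernel)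

/-- Hooks [23 19 13 9 5]. -/
def L69 : List BK := stepL true L27

theorem U69 : UL L69 := UL.step U27 true 69 12
    [.dom [10,17,23,29,35,40,45,49,53,57,61,63,65,67,68,69],
    .s1 3 5 [7,13,19,25,30,35,39,43,47,51,53,55,57,58,59]] 3
    (by decide +kernel) (by decide +kernel)

/-- Hooks [23 19 13 9 5 1]. -/
def L70 : List BK := stepL true L28

theorem U70 : UL L70 := UL.step U28 true 70 12
    [.dom [6,12,18,23,28,33,37,41,45,49,53,56,59,62,64,66,68,69,70]] 3
    (by decide +kernel) (by decide +kernel)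

/-- Hooks [23 19 13 9 5 3]. -/
def L72 : List BK := stepL true L30

theorem U72 : UL L72 := UL.step U30 true 72 12
    [.s1 2 7 [6,12,18,24,29,34,38,42,46,50,52,54,56,57,58],
    .dom [14,20,26,32,38,43,48,52,56,60,64,66,68,70,71,72]] 3
    (by decide +kernel) (by decide +kernel)

/-- Hooks [23 19 15 11 5]. -/
def L73 : List BK := stepL false L31

theorem U73 : UL L73 := UL.step U31 false 73 12
    [.dom [10,18,25,31,37,43,48,53,58,63,67,70,71,72,73],
    .s1 3 5 [8,15,21,27,33,38,43,48,53,57,60,61,62,63]] 3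
    (by decide +kernel) (by decide +kernel)

/-- Hooks [23 19 15 11 5 1]. -/
def L74 : List BK := stepL false L32

theorem U74 : UL L74 := UL.step U32 false 74 12
    [.dom [8,14,20,26,31,36,41,46,51,55,59,62,65,68,71,72,73,74]] 3
    (by decide +kernel) (by decide +kernel)

/-- Hooks [23 19 15 11 7 1]. -/
def L76 : List BK := stepL false L34

theorem U76 : UL L76 := UL.step U34 false 76 12
    [.dom [10,18,24,30,36,42,47,52,57,62,66,68,70,72,73,74,75,76],
    .s1 4 5 [8,14,20,26,32,37,42,47,52,56,58,60,62,63,64,65,66]] 3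
    (by decide +kernel) (by decide +kernel)

/-- Hooks [25 21 15 11 5]. -/
def L77 : List BK := stepL true L31

theorem U77 : UL L77 := UL.step U31 true 77 13
    [.dom [10,18,25,32,38,44,50,55,60,65,69,73,76,77],
    .s2 3 5 [8,15,22,28,34,40,45,50,55,59,63,66,67],
    .st [3,4] [5,4] 12 [7,14,20,26,32,37,42,47,51,55,58,59],
    .st [3,4,6] [5,4,2] 12 [7,14,20,26,32,37,42,47,51,54,55],
    .s1 3 5 [8,15,22,28,34,40,45,50,55,59,63,66,67]] 11
    (by decide +kernel) (by decide +kernel)

/-- Hooks [23 19 15 11 7 3]. -/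
def L78 : List BK := stepL false L36

theorem U78 : UL L78 := UL.step U36 false 78 12
    [.dom [6,12,18,23,28,33,38,42,46,50,54,57,60,63,66,68,70,72,74,75,76,77,78]] 3
    (by decide +kernel) (by decide +kernel)

/-- Hooks [23 19 15 11 7 3 1]. -/
def L79 : List BK := stepL false L37

theorem U79 : UL L79 := UL.step U37 false 79 12
    [.s1 3 7 [8,14,20,26,31,36,41,46,51,55,57,59,61,62,63,64,65],
    .dom [14,22,28,34,40,45,50,55,60,65,69,71,73,75,76,77,78,79]] 3
    (by decide +kernel) (by decide +kernel)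

/-- Hooks [25 21 15 11 7 1]. -/
def L80 : List BK := stepL true L34

theorem U80 : UL L80 := UL.step U34 true 80 13
    [.dom [10,18,25,31,37,43,49,54,59,64,68,72,74,76,78,79,80],
    .s1 4 5 [8,15,21,27,33,39,44,49,54,58,62,64,66,68,69,70],
    .s2 4 5 [8,15,21,27,33,39,44,49,54,58,62,64,66,68,69,70]] 3
    (by decide +kernel) (by decide +kernel)

/-- Hooks [23 19 15 11 7 5 1]. -/
def L81 : List BK := stepL false L39

theorem U81 : UL L81 := UL.step U39 false 81 12
    [.s1 2 8 [6,12,18,23,28,33,38,42,46,49,52,55,57,59,61,62,63,64,65]] 3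
    (by decide +kernel) (by decide +kernel)

/-- Hooks [25 21 15 11 7 3]. -/
def L82 : List BK := stepL true L36

theorem U82 : UL L82 := UL.step U36 true 82 13
    [.dom [7,13,19,25,30,35,40,44,48,52,56,60,63,66,69,72,74,76,78,80,81,82]] 3
    (by decide +kernel) (by decide +kernel)

/-- Hooks [25 21 15 11 7 3 1]. -/
def L83 : List BK := stepL true L37

theorem U83 : UL L83 := UL.step U37 true 83 13
    [.s1 3 7 [8,15,21,27,33,38,43,48,53,57,61,63,65,67,68,69],
    .dom [14,22,29,35,41,47,52,57,62,67,71,75,77,79,81,82,83]] 3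
    (by decide +kernel) (by decide +kernel)

/-- Hooks [25 21 17 13 7 1]. -/
def L84 : List BK := stepL false L38

theorem U84 : UL L84 := UL.step U38 false 84 13
    [.dom [10,18,26,33,39,45,51,57,63,68,73,78,81,82,83,84],
    .s2 4 5 [8,16,23,29,35,41,47,53,58,63,68,71,72,73,74]] 3
    (by decide +kernel) (by decide +kernel)

/-- Hooks [25 21 15 11 7 5 1]. -/
def L85 : List BK := stepL true L39

theorem U85 : UL L85 := UL.step U39 true 85 13
    [.s1 2 8 [7,13,19,25,30,35,40,44,48,52,55,58,61,63,65,67,68,69],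
    .dom [16,23,29,35,41,46,51,56,60,64,68,71,74,77,79,81,83,84,85]] 3
    (by decide +kernel) (by decide +kernel)

/-- Hooks [25 21 17 13 7 3]. -/
def L86 : List BK := stepL false L40

theorem U86 : UL L86 := UL.step U40 false 86 13
    [.dom [8,15,21,27,33,39,44,49,54,58,62,66,69,72,75,78,81,83,84,85,86]] 3
    (by decide +kernel) (by decide +kernel)

/-- Hooks [25 21 17 13 7 3 1]. -/
def L87 : List BK := stepL false L41

theorem U87 : UL L87 := UL.step U41 false 87 13
    [.s1 3 7 [8,16,23,29,35,41,47,52,57,62,67,70,71,72,73],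
    .dom [14,22,30,37,43,49,55,61,66,71,76,81,84,85,86,87],
    .s2 3 7 [8,16,23,29,35,41,47,52,57,62,67,70,71,72,73]] 3
    (by decide +kernel) (by decide +kernel)

/-- Hooks [25 21 17 13 9 3]. -/
def L88 : List BK := stepL false L42

theorem U88 : UL L88 := UL.step U42 false 88 13
    [.dom [10,19,26,32,38,44,50,55,60,65,69,72,75,78,80,82,84,85,86,87,88]] 3
    (by decide +kernel) (by decide +kernel)

/-- Hooks [25 21 17 13 7 5 1]. -/
def L89 : List BK := stepL false L43

theorem U89 : UL L89 := UL.step U43 false 89 13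
    [.s1 2 8 [8,15,21,27,33,39,44,49,54,58,61,64,67,70,71,72,73],
    .dom [16,24,31,37,43,49,55,60,65,70,74,77,80,83,86,87,88,89]] 3
    (by decide +kernel) (by decide +kernel)

/-- Hooks [25 21 17 13 9 5]. -/
def L90 : List BK := stepL false L44

theorem U90 : UL L90 := UL.step U44 false 90 13
    [.dom [12,19,25,31,37,43,48,53,58,63,68,72,76,80,82,84,86,87,88,89,90],
    .s1 3 6 [7,13,19,25,31,36,41,46,51,56,60,64,68,70,72,74,75,76,77,78]] 3
    (by decide +kernel) (by decide +kernel)

/-- Hooks [25 21 17 13 9 5 1]. -/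
def L91 : List BK := stepL false L45

theorem U91 : UL L91 := UL.step U45 false 91 13
    [.dom [7,14,20,26,32,38,43,48,53,58,62,66,70,73,76,79,81,83,85,87,88,89,90,91]] 3
    (by decide +kernel) (by decide +kernel)

/-- Hooks [27 23 17 13 9 3]. -/
def L92 : List BK := stepL true L42

theorem U92 : UL L92 := UL.step U42 true 92 14
    [.dom [10,19,26,33,40,46,52,57,62,67,71,75,78,81,84,86,88,90,91,92]] 3
    (by decide +kernel) (by decide +kernel)

/-- Hooks [25 21 17 13 9 5 3]. -/
def L93 : List BK := stepL false L47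

theorem U93 : UL L93 := UL.step U47 false 93 13
    [.s1 3 8 [9,16,23,29,35,41,47,52,57,62,67,69,71,73,74,75,76,77]] 3
    (by decide +kernel) (by decide +kernel)

/-- Hooks [27 23 17 13 9 5]. -/
def L94 : List BK := stepL true L44

theorem U94 : UL L94 := UL.step U44 true 94 14
    [.dom [12,19,26,33,39,45,50,55,60,65,70,74,78,82,86,88,90,92,93,94],
    .s1 3 6 [7,14,21,27,33,38,43,48,53,58,62,66,70,74,76,78,80,81,82]] 3
    (by decide +kernel) (by decide +kernel)

/-- Hooks [27 23 17 13 9 5 1]. -/
def L95 : List BK := stepL true L45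

theorem U95 : UL L95 := UL.step U45 true 95 14
    [.dom [7,14,21,28,34,40,45,50,55,60,64,68,72,76,79,82,85,87,89,91,93,94,95]] 3
    (by decide +kernel) (by decide +kernel)

/-- Hooks [27 23 19 15 9 3]. -/
def L96 : List BK := stepL false L46

theorem U96 : UL L96 := UL.step U46 false 96 14
    [.dom [10,19,27,34,41,48,54,60,66,72,77,81,84,87,90,93,94,95,96]] 3
    (by decide +kernel) (by decide +kernel)

/-- Hooks [27 23 17 13 9 5 3]. -/
def L97 : List BK := stepL true L47

theorem U97 : UL L97 := UL.step U47 true 97 14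
    [.s1 3 8 [9,16,23,30,37,43,49,54,59,64,69,73,75,77,79,80,81],
    .dom [16,25,32,39,46,53,59,65,70,75,80,85,89,91,93,95,96,97],
    .s2 3 8 [9,16,23,30,37,43,49,54,59,64,69,73,75,77,79,80,81]] 3
    (by decide +kernel) (by decide +kernel)

end Crest.Agent.Saxl.Table.Data
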