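import Crest.Agent.Lib.Saxl.TableData.Seeds
import Crest.Agent.Lib.Saxl.TableData.T00
import Crest.Agent.Lib.Saxl.TableData.T01
import Crest.Agent.Lib.Saxl.TableData.T02

/-! # The table of the universal shapes of the family (row 195, S0298): a generated part -/

set_option autoImplicit false
set_option maxRecDepth 100000

namespace Crest.Agent.Saxl.Table.Data

open Crest.Agent.Saxl Crest.Agent.Saxl.Family Crest.Agent.Saxl.Table

/-- Hooks [27 23 19 15 9 5]. -/
def L98 : List BK := stepL false L48

theorem U98 : UL L98 := UL.step U48 false 98 14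
    [.dom [12,20,27,34,41,47,53,59,65,70,75,80,84,88,92,95,96,97,98],
    .s1 3 6 [8,15,22,29,35,41,47,53,58,63,68,72,76,80,83,84,85,86]] 3
    (by decide +kernel) (by decide +kernel)

/-- Hooks [27 23 19 15 9 5 1]. -/
def L99 : List BK := stepL false L49

theorem U99 : UL L99 := UL.step U49 false 99 14
    [.dom [8,15,22,29,36,42,48,54,60,65,70,74,78,82,85,88,91,94,96,97,98,99]] 3
    (by decide +kernel) (by decide +kernel)

/-- Hooks [29 25 19 15 9 3]. -/
def L100 : List BK := stepL true L46

theorem U100 : UL L100 := UL.step U46 true 100 15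
    [.dom [10,19,27,35,42,49,56,62,68,74,79,83,87,90,93,96,99,100],
    .s2 4 5 [9,17,25,32,39,46,52,58,64,69,73,77,80,83,86,89,90],
    .st [4,5] [5,4] 12 [9,17,24,31,38,44,50,56,61,65,69,72,75,78,81,82],
    .st [4,5,7] [5,4,2] 12 [9,17,24,31,38,44,50,56,61,65,68,71,74,77,78]] 3
    (by decide +kernel) (by decide +kernel)

/-- Hooks [27 23 19 15 9 5 3]. -/
def L101 : List BK := stepL false L51

theorem U101 : UL L101 := UL.step U51 false 101 14
    [.s1 3 8 [9,17,24,31,38,45,51,57,63,69,74,79,82,83,84,85],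
    .dom [16,25,33,40,47,54,61,67,73,79,85,90,95,98,99,100,101],
    .s2 3 8 [9,17,24,31,38,45,51,57,63,69,74,79,82,83,84,85]] 3
    (by decide +kernel) (by decide +kernel)

/-- Hooks [29 25 19 15 9 5]. -/
def L102 : List BK := stepL true L48

theorem U102 : UL L102 := UL.step U48 true 102 15
    [.dom [12,20,28,35,42,49,55,61,67,72,77,82,86,90,94,98,101,102],
    .s2 3 6 [8,16,23,30,37,43,49,55,60,65,70,74,78,82,86,89,90],
    .s1 3 6 [8,16,23,30,37,43,49,55,60,65,70,74,78,82,86,89,90],
    .st [3,5] [6,4] 14 [8,15,22,29,35,41,47,52,57,62,66,70,74,78,81,82],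
    .st [3,5,7] [6,4,2] 14 [8,15,22,29,35,41,47,52,57,62,66,70,74,77,78]] 3
    (by decide +kernel) (by decide +kernel)

/-- Hooks [27 23 19 15 11 7 1]. -/
def L103 : List BK := stepL false L53

theorem U103 : UL L103 := UL.step U53 false 103 14
    [.dom [12,19,26,33,40,46,52,58,64,69,74,79,84,89,93,95,97,99,100,101,102,103],
    .s1 4 6 [7,14,21,28,34,40,46,52,57,62,67,72,77,81,83,85,87,88,89,90,91]] 3
    (by decide +kernel) (by decide +kernel)

/-- Hooks [29 25 19 15 11 5]. -/
def L104 : List BK := stepL true L50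

theorem U104 : UL L104 := UL.step U50 true 104 15
    [.dom [12,22,32,40,48,55,62,69,75,81,87,92,96,98,100,102,103,104],
    .s1 4 6 [10,20,28,36,43,50,57,63,69,75,80,84,86,88,90,91,92],
    .s2 4 6 [10,20,28,36,43,50,57,63,69,75,80,84,86,88,90,91,92],
    .st [4,7] [6,2] 10 [10,20,28,36,43,50,57,63,69,75,80,82,84,86,87,88],
    .ab 4 6 6 6 [10,20,28,36,43,50,57,63,69,75,80,84,86,88,90,91,92],
    .st [4,5] [6,5] 16 [10,18,26,33,40,47,53,59,65,70,74,76,78,80,81,82]] 17
    (by decide +kernel) (by decide +kernel)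

/-- Hooks [27 23 19 15 11 7 3]. -/
def L105 : List BK := stepL false L55

theorem U105 : UL L105 := UL.step U55 false 105 14
    [.dom [7,14,21,27,33,39,45,50,55,60,65,69,73,77,81,84,87,90,93,95,97,99,101,102,103,104,105]] 3
    (by decide +kernel) (by decide +kernel)

/-- Hooks [27 23 19 15 11 7 3 1]. -/
def L106 : List BK := stepL false L56

theorem U106 : UL L106 := UL.step U56 false 106 14
    [.s1 3 8 [7,14,21,27,33,39,45,50,55,60,65,69,72,75,78,80,82,84,86,87,88,89,90],
    .dom [16,23,30,37,43,49,55,61,66,71,76,81,85,88,91,94,96,98,100,102,103,104,105,106]] 3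
    (by decide +kernel) (by decide +kernel)

/-- Hooks [29 25 19 15 11 7 1]. -/
def L107 : List BK := stepL true L53

theorem U107 : UL L107 := UL.step U53 true 107 15
    [.dom [12,20,27,34,41,48,54,60,66,71,76,81,86,91,95,99,101,103,105,106,107],
    .s1 4 6 [8,15,22,29,36,42,48,54,59,64,69,74,79,83,87,89,91,93,94,95]] 3
    (by decide +kernel) (by decide +kernel)

/-- Hooks [27 23 19 15 11 7 5 1]. -/
def L108 : List BK := stepL false L58

theorem U108 : UL L108 := UL.step U58 false 108 14
    [.s1 3 9 [10,17,24,31,37,43,49,55,60,65,69,73,77,80,82,84,86,87,88,89,90]] 3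
    (by decide +kernel) (by decide +kernel)

/-- Hooks [29 25 19 15 11 7 3]. -/
def L109 : List BK := stepL true L55

theorem U109 : UL L109 := UL.step U55 true 109 15
    [.dom [8,15,22,29,35,41,47,52,57,62,67,71,75,79,83,87,90,93,96,99,101,103,105,107,108,109]] 3
    (by decide +kernel) (by decide +kernel)

/-- Hooks [29 25 19 15 11 7 3 1]. -/
def L110 : List BK := stepL true L56

theorem U110 : UL L110 := UL.step U56 true 110 15
    [.s1 3 8 [8,15,22,29,35,41,47,52,57,62,67,71,75,78,81,84,86,88,90,92,93,94],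
    .dom [16,24,31,38,45,51,57,63,68,73,78,83,87,91,94,97,100,102,104,106,108,109,110]] 3
    (by decide +kernel) (by decide +kernel)

/-- Hooks [29 25 21 17 11 7 1]. -/
def L111 : List BK := stepL false L57

theorem U111 : UL L111 := UL.step U57 false 111 15
    [.dom [12,20,28,35,42,49,56,63,69,75,81,86,91,96,101,105,108,109,110,111],
    .s1 4 6 [8,16,23,30,37,44,51,57,63,69,74,79,84,89,93,96,97,98,99]] 3
    (by decide +kernel) (by decide +kernel)

/-- Hooks [29 25 19 15 11 7 5 1]. -/
def L112 : List BK := stepL true L58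

theorem U112 : UL L112 := UL.step U58 true 112 15
    [.s1 3 9 [10,18,25,32,39,45,51,57,62,67,71,75,79,83,86,88,90,92,93,94],
    .dom [18,28,36,43,50,57,63,69,75,80,85,89,93,97,101,104,106,108,110,111,112]] 3
    (by decide +kernel) (by decide +kernel)

/-- Hooks [29 25 21 17 11 7 3]. -/
def L113 : List BK := stepL false L59

theorem U113 : UL L113 := UL.step U59 false 113 15
    [.dom [8,16,23,30,37,44,50,56,62,67,72,77,81,85,89,93,96,99,102,105,108,110,111,112,113]] 3
    (by decide +kernel) (by decide +kernel)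

/-- Hooks [29 25 21 17 11 7 3 1]. -/
def L114 : List BK := stepL false L60

theorem U114 : UL L114 := UL.step U60 false 114 15
    [.s1 3 8 [8,16,23,30,37,44,50,56,62,67,72,77,81,84,87,90,93,95,96,97,98],
    .dom [16,24,32,39,46,53,60,66,72,78,83,88,93,97,100,103,106,109,111,112,113,114]] 3
    (by decide +kernel) (by decide +kernel)

/-- Hooks [31 27 21 17 11 7 1]. -/
def L115 : List BK := stepL true L57

theorem U115 : UL L115 := UL.step U57 true 115 16
    [.dom [12,20,28,36,44,51,58,65,71,77,83,88,93,98,103,107,111,114,115],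
    .s2 4 6 [8,16,24,32,39,46,53,59,65,71,76,81,86,91,95,99,102,103],
    .st [4,6] [6,4] 14 [8,16,24,31,38,45,51,57,63,68,73,78,83,87,91,94,95],
    .st [4,6,8] [6,4,2] 14 [8,16,24,31,38,45,51,57,63,68,73,78,83,87,90,91],
    .s1 4 6 [8,16,24,32,39,46,53,59,65,71,76,81,86,91,95,99,102,103]] 4
    (by decide +kernel) (by decide +kernel)

/-- Hooks [29 25 21 17 11 7 5 1]. -/
def L116 : List BK := stepL false L62

theorem U116 : UL L116 := UL.step U62 false 116 15
    [.s1 3 9 [10,18,26,33,40,47,54,60,66,72,77,81,85,89,92,95,96,97,98],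
    .dom [18,28,36,44,51,58,65,72,78,84,90,95,99,103,107,110,113,114,115,116]] 3
    (by decide +kernel) (by decide +kernel)

/-- Hooks [29 25 21 17 13 9 3]. -/
def L117 : List BK := stepL false L63

theorem U117 : UL L117 := UL.step U63 false 117 15
    [.dom [12,20,27,34,41,48,54,60,66,72,77,82,87,92,96,100,104,107,109,111,113,114,115,116,117],
    .s1 4 6 [8,15,22,29,36,42,48,54,60,65,70,75,80,84,88,92,95,97,99,101,102,103,104,105]] 3
    (by decide +kernel) (by decide +kernel)

/-- Hooks [31 27 21 17 11 7 3 1]. -/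
def L118 : List BK := stepL true L60

theorem U118 : UL L118 := UL.step U60 true 118 16
    [.dom [16,24,32,40,48,55,62,68,74,80,85,90,95,99,103,106,109,112,115,117,118],
    .s1 3 8 [8,16,24,32,39,46,52,58,64,69,74,79,83,87,90,93,96,99,101,102],
    .s2 3 8 [8,16,24,32,39,46,52,58,64,69,74,79,83,87,90,93,96,99,101,102]] 3
    (by decide +kernel) (by decide +kernel)

/-- Hooks [29 25 21 17 13 9 5]. -/
def L119 : List BK := stepL false L65

theorem U119 : UL L119 := UL.step U65 false 119 15
    [.dom [14,23,31,38,45,52,59,65,71,77,83,88,93,98,101,104,107,109,111,113,115,116,117,118,119],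
    .s1 4 7 [9,17,24,31,38,45,51,57,63,69,74,79,84,87,90,93,95,97,99,101,102,103,104,105]] 3
    (by decide +kernel) (by decide +kernel)

/-- Hooks [29 25 21 17 13 9 5 1]. -/
def L120 : List BK := stepL false L66

theorem U120 : UL L120 := UL.step U66 false 120 15
    [.dom [8,15,22,29,36,43,49,55,61,67,72,77,82,87,91,95,99,102,105,108,110,112,114,116,117,118,119,120]] 3
    (by decide +kernel) (by decide +kernel)

/-- Hooks [31 27 21 17 13 9 3]. -/
def L121 : List BK := stepL true L63

theorem U121 : UL L121 := UL.step U63 true 121 16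
    [.dom [12,20,28,36,43,50,56,62,68,74,79,84,89,94,98,102,106,110,113,115,117,119,120,121],
    .s1 4 6 [8,16,24,31,38,44,50,56,62,67,72,77,82,86,90,94,98,101,103,105,107,108,109]] 3
    (by decide +kernel) (by decide +kernel)

/-- Hooks [29 25 21 17 13 9 5 3]. -/
def L122 : List BK := stepL false L68

theorem U122 : UL L122 := UL.step U68 false 122 15
    [.s1 3 9 [8,16,23,30,37,44,50,56,62,68,73,78,83,86,89,92,94,96,98,100,101,102,103,104],
    .dom [18,26,34,41,48,55,62,68,74,80,86,91,96,101,104,107,110,112,114,116,118,119,120,121,122]] 3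
    (by decide +kernel) (by decide +kernel)

/-- Hooks [31 27 21 17 13 9 5]. -/
def L123 : List BK := stepL true L65

theorem U123 : UL L123 := UL.step U65 true 123 16
    [.dom [14,23,31,39,47,54,61,67,73,79,85,90,95,100,104,107,110,113,115,117,119,121,122,123],
    .s1 4 7 [9,17,25,33,40,47,53,59,65,71,76,81,86,90,93,96,99,101,103,105,107,108,109]] 3
    (by decide +kernel) (by decide +kernel)

/-- Hooks [31 27 21 17 13 9 5 1]. -/
def L124 : List BK := stepL true L66

theorem U124 : UL L124 := UL.step U66 true 124 16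
    [.dom [8,16,24,31,38,45,51,57,63,69,74,79,84,89,93,97,101,105,108,111,114,116,118,120,122,123,124]] 3
    (by decide +kernel) (by decide +kernel)

end Crest.Agent.Saxl.Table.Data
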