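import Crest.Agent.Lib.Saxl.TableData.Seeds
import Crest.Agent.Lib.Saxl.TableData.T02

/-! # The table of the universal shapes of the family (row 195, S0298): a generated part -/

set_option autoImplicit false
set_option maxRecDepth 100000

namespace Crest.Agent.Saxl.Table.Data

open Crest.Agent.Saxl Crest.Agent.Saxl.Family Crest.Agent.Saxl.Table

/-- Hooks [31 27 23 19 13 9 3]. -/
def L125 : List BK := stepL false L67

theorem U125 : UL L125 := UL.step U67 false 125 16
    [.dom [12,20,28,36,44,51,58,65,72,78,84,89,94,99,104,108,112,116,119,122,123,124,125]] 3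
    (by decide +kernel) (by decide +kernel)

/-- Hooks [31 27 21 17 13 9 5 3]. -/
def L126 : List BK := stepL true L68

theorem U126 : UL L126 := UL.step U68 true 126 16
    [.s1 3 9 [8,16,24,32,39,46,52,58,64,70,75,80,85,89,92,95,98,100,102,104,106,107,108],
    .dom [18,26,34,42,50,57,64,70,76,82,88,93,98,103,107,110,113,116,118,120,122,124,125,126]] 3
    (by decide +kernel) (by decide +kernel)

/-- Hooks [31 27 23 19 13 9 5]. -/
def L127 : List BK := stepL false L69

theorem U127 : UL L127 := UL.step U69 false 127 16
    [.dom [14,23,31,39,47,55,62,69,76,83,89,95,100,105,110,113,116,119,122,124,125,126,127],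
    .s1 4 7 [9,17,25,33,41,48,55,62,69,75,81,86,91,96,99,102,105,108,110,111,112,113]] 3
    (by decide +kernel) (by decide +kernel)

/-- Hooks [31 27 23 19 13 9 5 1]. -/
def L128 : List BK := stepL false L70

theorem U128 : UL L128 := UL.step U70 false 128 16
    [.dom [8,16,24,32,39,46,53,60,67,73,79,84,89,94,99,103,107,111,114,117,120,123,125,126,127,128]] 3
    (by decide +kernel) (by decide +kernel)

/-- Hooks [33 29 23 19 13 9 3]. -/
def L129 : List BK := stepL true L67

theorem U129 : UL L129 := UL.step U67 true 129 17
    [.dom [12,21,29,37,45,53,60,67,74,80,86,91,96,101,106,110,114,118,122,125,128,129],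
    .s2 4 6 [9,17,25,33,41,48,55,62,68,74,79,84,89,94,98,102,106,110,113,116,117],
    .st [4,6] [6,4] 14 [9,17,25,33,40,47,54,60,66,71,76,81,86,90,94,98,102,105,108,109]] 3
    (by decide +kernel) (by decide +kernel)

/-- Hooks [31 27 23 19 13 9 5 3]. -/
def L130 : List BK := stepL false L72

theorem U130 : UL L130 := UL.step U72 false 130 16
    [.s1 3 9 [8,16,24,32,40,47,54,61,68,74,80,85,90,95,98,101,104,107,109,110,111,112],
    .dom [18,26,34,42,50,58,65,72,79,86,92,98,103,108,113,116,119,122,125,127,128,129,130]] 3
    (by decide +kernel) (by decide +kernel)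

/-- Hooks [33 29 23 19 13 9 5]. -/
def L131 : List BK := stepL true L69

theorem U131 : UL L131 := UL.step U69 true 131 17
    [.dom [14,23,32,40,48,56,64,71,78,85,91,97,102,107,112,116,119,122,125,128,130,131],
    .s1 4 7 [9,18,26,34,42,50,57,64,71,77,83,88,93,98,102,105,108,111,114,116,117],
    .s2 4 7 [9,18,26,34,42,50,57,64,71,77,83,88,93,98,102,105,108,111,114,116,117],
    .st [4,6] [7,4] 16 [9,18,26,34,42,49,56,63,69,75,80,85,90,94,97,100,103,106,108,109]] 3
    (by decide +kernel) (by decide +kernel)

/-- Hooks [31 27 23 19 15 11 5 1]. -/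
def L132 : List BK := stepL false L74

theorem U132 : UL L132 := UL.step U74 false 132 16
    [.dom [12,20,28,36,43,50,57,64,71,77,83,89,95,100,105,110,114,118,122,124,126,128,129,130,131,132]] 3
    (by decide +kernel) (by decide +kernel)

/-- Hooks [31 27 23 19 15 11 7 1]. -/
def L134 : List BK := stepL false L76

theorem U134 : UL L134 := UL.step U76 false 134 16
    [.dom [14,24,32,40,48,56,63,70,77,84,90,96,102,108,113,116,119,122,124,126,128,130,131,132,133,134],
    .s1 5 7 [10,18,26,34,42,49,56,63,70,76,82,88,94,99,102,105,108,110,112,114,116,117,118,119,120]] 3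
    (by decide +kernel) (by decide +kernel)

/-- Hooks [33 29 23 19 15 11 5]. -/
def L135 : List BK := stepL true L73

theorem U135 : UL L135 := UL.step U73 true 135 17
    [.dom [14,26,35,44,52,60,68,75,82,89,95,101,107,113,118,123,127,129,131,133,134,135],
    .s1 4 7 [12,21,30,38,46,54,61,68,75,81,87,93,99,104,109,113,115,117,119,120,121],
    .s2 4 7 [12,21,30,38,46,54,61,68,75,81,87,93,99,104,109,113,115,117,119,120,121],
    .st [4] [7] 12 [12,21,30,38,46,54,61,68,75,81,87,93,99,104,109,113,115,117,119,120,121],
    .st [4,8] [7,2] 12 [12,21,30,38,46,54,61,68,75,81,87,93,99,104,109,111,113,115,116,117]] 3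
    (by decide +kernel) (by decide +kernel)

/-- Hooks [31 27 23 19 15 11 7 3]. -/
def L136 : List BK := stepL false L78

theorem U136 : UL L136 := UL.step U78 false 136 16
    [.dom [8,16,24,31,38,45,52,58,64,70,76,81,86,91,96,100,104,108,112,115,118,121,124,126,128,130,132,133,134,135,136]] 3
    (by decide +kernel) (by decide +kernel)

/-- Hooks [31 27 23 19 15 11 7 3 1]. -/
def L137 : List BK := stepL false L79

theorem U137 : UL L137 := UL.step U79 false 137 16
    [.s1 4 9 [10,18,26,34,41,48,55,62,69,75,81,87,93,98,101,104,107,109,111,113,115,116,117,118,119],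
    .dom [18,28,36,44,52,59,66,73,80,87,93,99,105,111,116,119,122,125,127,129,131,133,134,135,136,137]] 3
    (by decide +kernel) (by decide +kernel)

/-- Hooks [33 29 23 19 15 11 7 1]. -/
def L138 : List BK := stepL true L76

theorem U138 : UL L138 := UL.step U76 true 138 17
    [.dom [14,24,33,41,49,57,65,72,79,86,92,98,104,110,115,119,122,125,128,130,132,134,136,137,138],
    .s1 5 7 [10,19,27,35,43,51,58,65,72,78,84,90,96,101,105,108,111,114,116,118,120,122,123,124]] 3
    (by decide +kernel) (by decide +kernel)

/-- Hooks [31 27 23 19 15 11 7 5 1]. -/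
def L139 : List BK := stepL false L81

theorem U139 : UL L139 := UL.step U81 false 139 16
    [.s1 3 10 [8,16,24,31,38,45,52,58,64,70,76,81,86,90,94,98,101,104,107,109,111,113,115,116,117,118,119],
    .dom [20,28,36,44,51,58,65,72,78,84,90,96,101,106,110,114,118,121,124,127,129,131,133,135,136,137,138,139]] 3
    (by decide +kernel) (by decide +kernel)

/-- Hooks [33 29 23 19 15 11 7 3]. -/
def L140 : List BK := stepL true L78

theorem U140 : UL L140 := UL.step U78 true 140 17
    [.dom [9,17,25,33,40,47,54,60,66,72,78,83,88,93,98,102,106,110,114,118,121,124,127,130,132,134,136,138,139,140]] 3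
    (by decide +kernel) (by decide +kernel)

/-- Hooks [33 29 23 19 15 11 7 3 1]. -/
def L141 : List BK := stepL true L79

theorem U141 : UL L141 := UL.step U79 true 141 17
    [.s1 4 9 [10,19,27,35,43,50,57,64,71,77,83,89,95,100,104,107,110,113,115,117,119,121,122,123],
    .dom [18,28,37,45,53,61,68,75,82,89,95,101,107,113,118,122,125,128,131,133,135,137,139,140,141]] 3
    (by decide +kernel) (by decide +kernel)

/-- Hooks [33 29 25 21 15 11 7 1]. -/
def L142 : List BK := stepL false L80

theorem U142 : UL L142 := UL.step U80 false 142 17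
    [.dom [14,24,33,41,49,57,65,73,81,88,95,102,108,114,120,125,128,131,134,137,139,140,141,142],
    .s1 5 7 [10,19,27,35,43,51,59,67,74,81,88,94,100,106,111,114,117,120,123,125,126,127,128]] 3
    (by decide +kernel) (by decide +kernel)

/-- Hooks [33 29 23 19 15 11 7 5 1]. -/
def L143 : List BK := stepL true L81

theorem U143 : UL L143 := UL.step U81 true 143 17
    [.s1 3 10 [9,17,25,33,40,47,54,60,66,72,78,83,88,92,96,100,104,107,110,113,115,117,119,121,122,123],
    .dom [20,29,37,45,53,60,67,74,80,86,92,98,103,108,112,116,120,124,127,130,133,135,137,139,141,142,143]] 3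
    (by decide +kernel) (by decide +kernel)

/-- Hooks [33 29 25 21 15 11 7 3]. -/
def L144 : List BK := stepL false L82

theorem U144 : UL L144 := UL.step U82 false 144 17
    [.dom [9,17,25,33,41,49,56,63,70,76,82,88,93,98,103,108,112,116,120,124,127,130,133,136,139,141,142,143,144]] 3
    (by decide +kernel) (by decide +kernel)

/-- Hooks [33 29 25 21 15 11 7 3 1]. -/
def L145 : List BK := stepL false L83

theorem U145 : UL L145 := UL.step U83 false 145 17
    [.s1 4 9 [10,19,27,35,43,51,59,66,73,80,87,93,99,105,110,113,116,119,122,124,125,126,127],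
    .dom [18,28,37,45,53,61,69,77,84,91,98,105,111,117,123,128,131,134,137,140,142,143,144,145]] 3
    (by decide +kernel) (by decide +kernel)

/-- Hooks [35 31 25 21 15 11 7 1]. -/
def L146 : List BK := stepL true L80

theorem U146 : UL L146 := UL.step U80 true 146 18
    [.dom [14,24,33,42,51,59,67,75,83,90,97,104,110,116,122,127,131,134,137,140,143,145,146],
    .s1 5 7 [10,19,28,37,45,53,61,69,76,83,90,96,102,108,113,117,120,123,126,129,131,132],
    .s2 5 7 [10,19,28,37,45,53,61,69,76,83,90,96,102,108,113,117,120,123,126,129,131,132],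
    .st [5,7] [7,4] 16 [10,19,28,37,45,53,61,68,75,82,88,94,100,105,109,112,115,118,121,123,124],
    .st [5,7,9] [7,4,2] 16 [10,19,28,37,45,53,61,68,75,82,88,94,100,105,108,111,114,117,119,120]] 3
    (by decide +kernel) (by decide +kernel)

/-- Hooks [33 29 25 21 15 11 7 5 1]. -/
def L147 : List BK := stepL false L85

theorem U147 : UL L147 := UL.step U85 false 147 17
    [.s1 3 10 [9,17,25,33,41,49,56,63,70,76,82,88,93,98,102,106,110,113,116,119,122,124,125,126,127],
    .dom [20,29,37,45,53,61,69,76,83,90,96,102,108,113,118,122,126,130,133,136,139,142,144,145,146,147]] 3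
    (by decide +kernel) (by decide +kernel)

/-- Hooks [33 29 25 21 17 13 7 3]. -/
def L148 : List BK := stepL false L86

theorem U148 : UL L148 := UL.step U86 false 148 17
    [.dom [12,21,29,37,45,53,60,67,74,81,87,93,99,104,109,114,119,123,127,131,135,138,140,142,144,145,146,147,148]] 3
    (by decide +kernel) (by decide +kernel)

end Crest.Agent.Saxl.Table.Data
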