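import Crest.Agent.Lib.Saxl.TableData.Seeds
import Crest.Agent.Lib.Saxl.TableData.T02
import Crest.Agent.Lib.Saxl.TableData.T03

/-! # The table of the universal shapes of the family (row 195, S0298): a generated part -/

set_option autoImplicit false
set_option maxRecDepth 100000

namespace Crest.Agent.Saxl.Table.Data

open Crest.Agent.Saxl Crest.Agent.Saxl.Family Crest.Agent.Saxl.Table

/-- Hooks [35 31 25 21 15 11 7 3 1]. -/
def L149 : List BK := stepL true L83

theorem U149 : UL L149 := UL.step U83 true 149 18
    [.dom [18,28,37,46,55,63,71,79,86,93,100,107,113,119,125,130,134,137,140,143,146,148,149],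
    .s1 4 9 [10,19,28,37,45,53,61,68,75,82,89,95,101,107,112,116,119,122,125,128,130,131],
    .s2 4 9 [10,19,28,37,45,53,61,68,75,82,89,95,101,107,112,116,119,122,125,128,130,131],
    .st [4,9] [9,2] 16 [10,19,28,37,45,53,61,68,75,82,89,95,101,107,112,115,118,121,124,126,127]] 3
    (by decide +kernel) (by decide +kernel)

/-- Hooks [33 29 25 21 17 13 9 3]. -/
def L150 : List BK := stepL false L88

theorem U150 : UL L150 := UL.step U88 false 150 17
    [.dom [14,25,34,42,50,58,66,73,80,87,94,100,106,112,117,121,125,129,132,135,138,140,142,144,146,147,148,149,150],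
    .s1 5 7 [11,20,28,36,44,52,59,66,73,80,86,92,98,103,107,111,115,118,121,124,126,128,130,132,133,134,135,136]] 3
    (by decide +kernel) (by decide +kernel)

/-- Hooks [35 31 25 21 15 11 7 5 1]. -/
def L151 : List BK := stepL true L85

theorem U151 : UL L151 := UL.step U85 true 151 18
    [.s1 3 10 [9,18,27,35,43,51,58,65,72,78,84,90,95,100,104,108,112,116,119,122,125,128,130,131],
    .dom [20,29,38,47,55,63,71,78,85,92,98,104,110,115,120,124,128,132,136,139,142,145,148,150,151]] 3
    (by decide +kernel) (by decide +kernel)

/-- Hooks [33 29 25 21 17 13 9 5]. -/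
def L152 : List BK := stepL false L90

theorem U152 : UL L152 := UL.step U90 false 152 17
    [.dom [16,25,33,41,49,57,64,71,78,85,92,98,104,110,116,121,126,131,134,137,140,142,144,146,148,149,150,151,152],
    .s1 4 8 [9,17,25,33,41,48,55,62,69,76,82,88,94,100,105,110,115,118,121,124,126,128,130,132,133,134,135,136]] 3
    (by decide +kernel) (by decide +kernel)

/-- Hooks [33 29 25 21 17 13 9 5 1]. -/
def L153 : List BK := stepL false L91

theorem U153 : UL L153 := UL.step U91 false 153 17
    [.dom [9,18,26,34,42,50,57,64,71,78,84,90,96,102,107,112,117,121,125,129,132,135,138,141,143,145,147,149,150,151,152,153]] 3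
    (by decide +kernel) (by decide +kernel)

/-- Hooks [35 31 25 21 17 13 9 3]. -/
def L154 : List BK := stepL true L88

theorem U154 : UL L154 := UL.step U88 true 154 18
    [.dom [14,25,34,43,52,60,68,75,82,89,96,102,108,114,119,123,127,131,135,138,141,144,146,148,150,152,153,154],
    .s1 5 7 [11,20,29,38,46,54,61,68,75,82,88,94,100,105,109,113,117,121,124,127,130,132,134,136,138,139,140]] 3
    (by decide +kernel) (by decide +kernel)

/-- Hooks [33 29 25 21 17 13 9 5 3]. -/
def L155 : List BK := stepL false L93

theorem U155 : UL L155 := UL.step U93 false 155 17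
    [.s1 4 10 [11,20,29,37,45,53,61,68,75,82,89,96,102,108,114,117,120,123,125,127,129,131,132,133,134,135],
    .dom [20,31,40,49,57,65,73,81,88,95,102,109,116,122,128,134,137,140,143,145,147,149,151,152,153,154,155]] 3
    (by decide +kernel) (by decide +kernel)

/-- Hooks [35 31 25 21 17 13 9 5]. -/
def L156 : List BK := stepL true L90

theorem U156 : UL L156 := UL.step U90 true 156 18
    [.dom [16,25,34,43,51,59,66,73,80,87,94,100,106,112,118,123,128,133,137,140,143,146,148,150,152,154,155,156],
    .s1 4 8 [9,18,27,35,43,50,57,64,71,78,84,90,96,102,107,112,117,121,124,127,130,132,134,136,138,139,140]] 3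
    (by decide +kernel) (by decide +kernel)

/-- Hooks [35 31 25 21 17 13 9 5 1]. -/
def L157 : List BK := stepL true L91

theorem U157 : UL L157 := UL.step U91 true 157 18
    [.dom [9,18,27,36,44,52,59,66,73,80,86,92,98,104,109,114,119,123,127,131,135,138,141,144,147,149,151,153,155,156,157]] 3
    (by decide +kernel) (by decide +kernel)

/-- Hooks [35 31 27 23 17 13 9 3]. -/
def L158 : List BK := stepL false L92

theorem U158 : UL L158 := UL.step U92 false 158 18
    [.dom [14,25,34,43,52,60,68,76,84,92,99,106,112,118,124,129,133,137,141,144,147,150,153,155,156,157,158],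
    .s1 5 7 [11,20,29,38,46,54,62,70,78,85,92,98,104,110,115,119,123,127,130,133,136,139,141,142,143,144]] 3
    (by decide +kernel) (by decide +kernel)

/-- Hooks [35 31 25 21 17 13 9 5 3]. -/
def L159 : List BK := stepL true L93

theorem U159 : UL L159 := UL.step U93 true 159 18
    [.s1 4 10 [11,20,29,38,47,55,63,70,77,84,91,98,104,110,116,120,123,126,129,131,133,135,137,138,139],
    .dom [20,31,40,49,58,67,75,83,90,97,104,111,118,124,130,136,140,143,146,149,151,153,155,157,158,159]] 3
    (by decide +kernel) (by decide +kernel)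

/-- Hooks [35 31 27 23 17 13 9 5]. -/
def L160 : List BK := stepL false L94

theorem U160 : UL L160 := UL.step U94 false 160 18
    [.dom [16,25,34,43,51,59,67,75,83,90,97,104,110,116,122,128,133,138,143,146,149,152,155,157,158,159,160],
    .s1 4 8 [9,18,27,35,43,51,59,67,74,81,88,94,100,106,112,117,122,127,130,133,136,139,141,142,143,144]] 3
    (by decide +kernel) (by decide +kernel)

/-- Hooks [35 31 27 23 17 13 9 5 1]. -/
def L161 : List BK := stepL false L95

theorem U161 : UL L161 := UL.step U95 false 161 18
    [.dom [9,18,27,36,44,52,60,68,76,83,90,96,102,108,114,119,124,129,133,137,141,144,147,150,153,156,158,159,160,161]] 3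
    (by decide +kernel) (by decide +kernel)

/-- Hooks [37 33 27 23 17 13 9 3]. -/
def L162 : List BK := stepL true L92

theorem U162 : UL L162 := UL.step U92 true 162 19
    [.dom [14,25,35,44,53,62,70,78,86,94,101,108,114,120,126,131,135,139,143,147,150,153,156,159,161,162],
    .s1 5 7 [11,21,30,39,48,56,64,72,80,87,94,100,106,112,117,121,125,129,133,136,139,142,145,147,148],
    .s2 5 7 [11,21,30,39,48,56,64,72,80,87,94,100,106,112,117,121,125,129,133,136,139,142,145,147,148]] 3
    (by decide +kernel) (by decide +kernel)

/-- Hooks [35 31 27 23 17 13 9 5 3]. -/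
def L163 : List BK := stepL false L97

theorem U163 : UL L163 := UL.step U97 false 163 18
    [.s1 4 10 [11,20,29,38,47,55,63,71,79,87,94,101,108,114,120,126,129,132,135,138,140,141,142,143],
    .dom [20,31,40,49,58,67,75,83,91,99,107,114,121,128,134,140,146,149,152,155,158,160,161,162,163]] 3
    (by decide +kernel) (by decide +kernel)

/-- Hooks [37 33 27 23 17 13 9 5]. -/
def L164 : List BK := stepL true L94

theorem U164 : UL L164 := UL.step U94 true 164 19
    [.dom [16,26,35,44,53,61,69,77,85,92,99,106,112,118,124,130,135,140,145,149,152,155,158,161,163,164],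
    .s1 4 8 [10,19,28,37,45,53,61,69,76,83,90,96,102,108,114,119,124,129,133,136,139,142,145,147,148],
    .s2 4 8 [10,19,28,37,45,53,61,69,76,83,90,96,102,108,114,119,124,129,133,136,139,142,145,147,148]] 3
    (by decide +kernel) (by decide +kernel)

/-- Hooks [35 31 27 23 19 15 9 5 1]. -/
def L165 : List BK := stepL false L99

theorem U165 : UL L165 := UL.step U99 false 165 18
    [.dom [12,21,30,39,48,56,64,72,80,87,94,101,108,114,120,125,130,135,140,144,148,152,155,157,159,161,162,163,164,165]] 3
    (by decide +kernel) (by decide +kernel)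

/-- Hooks [37 33 27 23 19 15 9 3]. -/
def L166 : List BK := stepL true L96

theorem U166 : UL L166 := UL.step U96 true 166 19
    [.dom [14,26,37,47,56,65,74,82,90,98,105,112,119,126,132,137,142,146,150,154,158,160,162,164,165,166],
    .s1 5 7 [12,23,33,42,51,60,68,76,84,91,98,105,112,118,123,128,132,136,140,144,146,148,150,151,152],
    .s2 5 7 [12,23,33,42,51,60,68,76,84,91,98,105,112,118,123,128,132,136,140,144,146,148,150,151,152]] 3
    (by decide +kernel) (by decide +kernel)

/-- Hooks [37 33 27 23 17 13 9 5 3]. -/
def L167 : List BK := stepL true L97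

theorem U167 : UL L167 := UL.step U97 true 167 19
    [.s1 4 10 [11,21,30,39,48,57,65,73,81,89,96,103,110,116,122,128,132,135,138,141,144,146,147],
    .dom [20,31,41,50,59,68,77,85,93,101,109,116,123,130,136,142,148,152,155,158,161,164,166,167],
    .s2 4 10 [11,21,30,39,48,57,65,73,81,89,96,103,110,116,122,128,132,135,138,141,144,146,147],
    .st [4,10] [10,2] 18 [11,21,30,39,48,57,65,73,81,89,96,103,110,116,122,128,131,134,137,140,142,143],
    .st [4,8] [10,4] 22 [11,21,30,39,48,57,65,73,81,88,95,102,108,114,120,124,127,130,133,136,138,139]] 14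
    (by decide +kernel) (by decide +kernel)

/-- Hooks [37 33 27 23 19 15 9 5]. -/
def L168 : List BK := stepL true L98

theorem U168 : UL L168 := UL.step U98 true 168 19
    [.dom [16,28,38,47,56,65,73,81,89,96,103,110,117,124,130,136,141,146,151,156,160,162,164,166,167,168],
    .s1 4 8 [12,22,31,40,49,57,65,73,80,87,94,101,108,114,120,125,130,135,140,144,146,148,150,151,152],
    .s2 4 8 [12,22,31,40,49,57,65,73,80,87,94,101,108,114,120,125,130,135,140,144,146,148,150,151,152]] 3
    (by decide +kernel) (by decide +kernel)

end Crest.Agent.Saxl.Table.Data
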