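import Crest.Agent.Lib.Saxl.TableData.Seeds
import Crest.Agent.Lib.Saxl.TableData.T03

/-! # The table of the universal shapes of the family (row 195, S0298): a generated part -/

set_option autoImplicit false
set_option maxRecDepth 100000

namespace Crest.Agent.Saxl.Table.Data

open Crest.Agent.Saxl Crest.Agent.Saxl.Family Crest.Agent.Saxl.Table

/-- Hooks [35 31 27 23 19 15 11 7 1]. -/
def L169 : List BK := stepL false L103

theorem U169 : UL L169 := UL.step U103 false 169 18
    [.dom [16,25,34,43,52,60,68,76,84,91,98,105,112,119,125,131,137,143,148,151,154,157,159,161,163,165,166,167,168,169],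
    .s1 5 8 [9,18,27,36,44,52,60,68,75,82,89,96,103,109,115,121,127,132,135,138,141,143,145,147,149,150,151,152,153]] 3
    (by decide +kernel) (by decide +kernel)

/-- Hooks [37 33 29 25 19 15 9 3]. -/
def L170 : List BK := stepL false L100

theorem U170 : UL L170 := UL.step U100 false 170 19
    [.dom [14,26,37,47,56,65,74,83,91,99,107,115,122,129,136,142,147,152,156,160,164,167,168,169,170],
    .s2 5 7 [12,23,33,42,51,60,69,77,85,93,101,108,115,122,128,133,138,142,146,150,153,154,155,156],
    .s1 5 7 [12,23,33,42,51,60,69,77,85,93,101,108,115,122,128,133,138,142,146,150,153,154,155,156],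
    .st [5,8] [7,4] 16 [12,23,33,42,51,60,69,77,85,93,100,107,114,120,125,130,134,138,142,145,146,147,148]] 3
    (by decide +kernel) (by decide +kernel)

/-- Hooks [35 31 27 23 19 15 11 7 3]. -/
def L171 : List BK := stepL false L105

theorem U171 : UL L171 := UL.step U105 false 171 18
    [.dom [9,18,27,35,43,51,59,66,73,80,87,93,99,105,111,116,121,126,131,135,139,143,147,150,153,156,159,161,163,165,167,168,169,170,171]] 3
    (by decide +kernel) (by decide +kernel)

/-- Hooks [35 31 27 23 19 15 11 7 3 1]. -/
def L172 : List BK := stepL false L106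

theorem U172 : UL L172 := UL.step U106 false 172 18
    [.s1 4 10 [9,18,27,35,43,51,59,66,73,80,87,93,99,105,111,116,120,124,128,131,134,137,140,142,144,146,148,149,150,151,152],
    .dom [20,29,38,47,55,63,71,79,86,93,100,107,113,119,125,131,136,140,144,148,151,154,157,160,162,164,166,168,169,170,171,172]] 3
    (by decide +kernel) (by decide +kernel)

/-- Hooks [37 33 27 23 19 15 11 7 1]. -/
def L173 : List BK := stepL true L103

theorem U173 : UL L173 := UL.step U103 true 173 19
    [.dom [16,26,35,44,53,62,70,78,86,93,100,107,114,121,127,133,139,145,150,154,157,160,163,165,167,169,171,172,173],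
    .s1 5 8 [10,19,28,37,46,54,62,70,77,84,91,98,105,111,117,123,129,134,138,141,144,147,149,151,153,155,156,157]] 3
    (by decide +kernel) (by decide +kernel)

/-- Hooks [35 31 27 23 19 15 11 7 5 1]. -/
def L174 : List BK := stepL false L108

theorem U174 : UL L174 := UL.step U108 false 174 18
    [.s1 4 11 [12,21,30,39,47,55,63,71,78,85,92,99,106,112,117,122,127,131,134,137,140,142,144,146,148,149,150,151,152],
    .dom [22,34,43,52,61,69,77,85,93,100,107,114,121,128,134,139,144,149,153,156,159,162,164,166,168,170,171,172,173,174]] 3
    (by decide +kernel) (by decide +kernel)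

/-- Hooks [37 33 27 23 19 15 11 7 3]. -/
def L175 : List BK := stepL true L105

theorem U175 : UL L175 := UL.step U105 true 175 19
    [.dom [10,19,28,37,45,53,61,68,75,82,89,95,101,107,113,118,123,128,133,137,141,145,149,153,156,159,162,165,167,169,171,173,174,175]] 3
    (by decide +kernel) (by decide +kernel)

/-- Hooks [37 33 27 23 19 15 11 7 3 1]. -/
def L176 : List BK := stepL true L106

theorem U176 : UL L176 := UL.step U106 true 176 19
    [.s1 4 10 [10,19,28,37,45,53,61,68,75,82,89,95,101,107,113,118,122,126,130,134,137,140,143,146,148,150,152,154,155,156],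
    .dom [20,30,39,48,57,65,73,81,88,95,102,109,115,121,127,133,138,142,146,150,154,157,160,163,166,168,170,172,174,175,176]] 3
    (by decide +kernel) (by decide +kernel)

/-- Hooks [37 33 29 25 19 15 11 7 1]. -/
def L177 : List BK := stepL false L107

theorem U177 : UL L177 := UL.step U107 false 177 19
    [.dom [16,26,35,44,53,62,71,79,87,95,103,110,117,124,131,137,143,149,155,160,163,166,169,172,174,175,176,177],
    .s1 5 8 [10,19,28,37,46,55,63,71,79,87,94,101,108,115,121,127,133,139,144,147,150,153,156,158,159,160,161]] 3
    (by decide +kernel) (by decide +kernel)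

/-- Hooks [37 33 27 23 19 15 11 7 5 1]. -/
def L178 : List BK := stepL true L108

theorem U178 : UL L178 := UL.step U108 true 178 19
    [.s1 4 11 [12,22,31,40,49,57,65,73,80,87,94,101,108,114,119,124,129,133,137,140,143,146,148,150,152,154,155,156],
    .dom [22,34,44,53,62,71,79,87,95,102,109,116,123,130,136,141,146,151,155,159,162,165,168,170,172,174,176,177,178]] 3
    (by decide +kernel) (by decide +kernel)

/-- Hooks [37 33 29 25 19 15 11 7 3]. -/
def L179 : List BK := stepL false L109

theorem U179 : UL L179 := UL.step U109 false 179 19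
    [.dom [10,19,28,37,46,54,62,70,78,85,92,99,105,111,117,123,128,133,138,143,147,151,155,159,162,165,168,171,174,176,177,178,179]] 3
    (by decide +kernel) (by decide +kernel)

/-- Hooks [37 33 29 25 19 15 11 7 3 1]. -/
def L180 : List BK := stepL false L110

theorem U180 : UL L180 := UL.step U110 false 180 19
    [.s1 4 10 [10,19,28,37,46,54,62,70,78,85,92,99,105,111,117,123,128,132,136,140,143,146,149,152,155,157,158,159,160],
    .dom [20,30,39,48,57,66,74,82,90,98,105,112,119,125,131,137,143,148,152,156,160,163,166,169,172,175,177,178,179,180]] 3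
    (by decide +kernel) (by decide +kernel)

/-- Hooks [37 33 29 25 21 17 11 7 1]. -/
def L181 : List BK := stepL false L111

theorem U181 : UL L181 := UL.step U111 false 181 19
    [.dom [16,28,38,47,56,65,74,83,91,99,107,115,122,129,136,143,149,155,161,166,171,173,175,177,178,179,180,181],
    .s1 5 8 [12,22,31,40,49,58,67,75,83,91,99,106,113,120,127,133,139,145,150,155,157,159,161,162,163,164,165]] 3
    (by decide +kernel) (by decide +kernel)

/-- Hooks [37 33 29 25 19 15 11 7 5 1]. -/
def L182 : List BK := stepL false L112

theorem U182 : UL L182 := UL.step U112 false 182 19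
    [.s1 4 11 [12,22,31,40,49,58,66,74,82,90,97,104,111,118,124,129,134,139,143,146,149,152,155,157,158,159,160],
    .dom [22,34,44,53,62,71,80,88,96,104,112,119,126,133,140,146,151,156,161,165,168,171,174,177,179,180,181,182]] 3
    (by decide +kernel) (by decide +kernel)

/-- Hooks [37 33 29 25 21 17 11 7 3]. -/
def L183 : List BK := stepL false L113

theorem U183 : UL L183 := UL.step U113 false 183 19
    [.dom [12,22,31,40,49,58,66,74,82,90,97,104,111,117,123,129,134,139,144,149,154,158,162,166,170,173,175,177,179,180,181,182,183]] 3
    (by decide +kernel) (by decide +kernel)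

/-- Hooks [37 33 29 25 21 17 11 7 3 1]. -/
def L184 : List BK := stepL false L114

theorem U184 : UL L184 := UL.step U114 false 184 19
    [.s1 4 10 [12,22,31,40,49,58,66,74,82,90,97,104,111,117,123,129,134,139,143,147,151,154,156,158,160,161,162,163,164],
    .dom [20,32,42,51,60,69,78,86,94,102,110,117,124,131,137,143,149,154,159,163,167,171,174,176,178,180,181,182,183,184]] 3
    (by decide +kernel) (by decide +kernel)

/-- Hooks [39 35 29 25 21 17 11 7 1]. -/
def L185 : List BK := stepL true L111

theorem U185 : UL L185 := UL.step U111 true 185 20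
    [.dom [16,28,38,48,58,67,76,85,93,101,109,117,124,131,138,145,151,157,163,168,173,177,179,181,183,184,185],
    .s1 5 8 [12,22,32,42,51,60,69,77,85,93,101,108,115,122,129,135,141,147,152,157,161,163,165,167,168,169],
    .s2 5 8 [12,22,32,42,51,60,69,77,85,93,101,108,115,122,129,135,141,147,152,157,161,163,165,167,168,169]] 3
    (by decide +kernel) (by decide +kernel)

/-- Hooks [37 33 29 25 21 17 11 7 5 1]. -/
def L186 : List BK := stepL false L116

theorem U186 : UL L186 := UL.step U116 false 186 19
    [.s1 4 11 [12,24,34,43,52,61,70,78,86,94,102,109,116,123,130,135,140,145,150,154,156,158,160,161,162,163,164],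
    .dom [22,34,46,56,65,74,83,92,100,108,116,124,131,138,145,152,157,162,167,172,176,178,180,182,183,184,185,186]] 3
    (by decide +kernel) (by decide +kernel)

/-- Hooks [37 33 29 25 21 17 13 9 3]. -/
def L187 : List BK := stepL false L117

theorem U187 : UL L187 := UL.step U117 false 187 19
    [.dom [16,26,35,44,53,62,70,78,86,94,101,108,115,122,129,135,141,147,152,157,162,166,169,172,175,177,179,181,183,184,185,186,187],
    .s1 5 8 [10,19,28,37,46,54,62,70,78,85,92,99,106,113,119,125,131,136,141,146,150,153,156,159,161,163,165,167,168,169,170,171]] 3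
    (by decide +kernel) (by decide +kernel)

end Crest.Agent.Saxl.Table.Data
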