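import Crest.Agent.Lib.Saxl.TableData.Seeds
import Crest.Agent.Lib.Saxl.TableData.T03
import Crest.Agent.Lib.Saxl.TableData.T04

/-! # The table of the universal shapes of the family (row 195, S0298): a generated part -/

set_option autoImplicit false
set_option maxRecDepth 100000

namespace Crest.Agent.Saxl.Table.Data

open Crest.Agent.Saxl Crest.Agent.Saxl.Family Crest.Agent.Saxl.Table

/-- Hooks [39 35 29 25 21 17 11 7 3 1]. -/
def L188 : List BK := stepL true L114

theorem U188 : UL L188 := UL.step U114 true 188 20
    [.dom [20,32,42,52,62,71,80,88,96,104,112,119,126,133,139,145,151,156,161,165,169,173,177,180,182,184,186,187,188],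
    .s1 4 10 [12,22,32,42,51,60,68,76,84,92,99,106,113,119,125,131,136,141,145,149,153,157,160,162,164,166,167,168]] 3
    (by decide +kernel) (by decide +kernel)

/-- Hooks [37 33 29 25 21 17 13 9 5]. -/
def L189 : List BK := stepL false L119

theorem U189 : UL L189 := UL.step U119 false 189 19
    [.dom [18,29,39,48,57,66,75,83,91,99,107,114,121,128,135,141,147,153,157,161,165,168,171,174,177,179,181,183,185,186,187,188,189],
    .s1 5 9 [11,21,30,39,48,57,65,73,81,89,96,103,110,117,123,129,135,139,143,147,150,153,156,159,161,163,165,167,168,169,170,171]] 3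
    (by decide +kernel) (by decide +kernel)

/-- Hooks [37 33 29 25 21 17 13 9 5 1]. -/
def L190 : List BK := stepL false L120

theorem U190 : UL L190 := UL.step U120 false 190 19
    [.dom [10,19,28,37,46,55,63,71,79,87,94,101,108,115,121,127,133,139,144,149,154,158,162,166,169,172,175,178,180,182,184,186,187,188,189,190]] 3
    (by decide +kernel) (by decide +kernel)

/-- Hooks [39 35 29 25 21 17 13 9 3]. -/
def L191 : List BK := stepL true L117

theorem U191 : UL L191 := UL.step U117 true 191 20
    [.dom [16,26,36,46,55,64,72,80,88,96,103,110,117,124,131,137,143,149,154,159,164,168,172,175,178,181,183,185,187,189,190,191],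
    .s1 5 8 [10,20,30,39,48,56,64,72,80,87,94,101,108,115,121,127,133,138,143,148,152,156,159,162,165,167,169,171,173,174,175]] 3
    (by decide +kernel) (by decide +kernel)

/-- Hooks [37 33 29 25 21 17 13 9 5 3]. -/
def L192 : List BK := stepL false L122

theorem U192 : UL L192 := UL.step U122 false 192 19
    [.s1 4 11 [10,20,29,38,47,56,64,72,80,88,95,102,109,116,122,128,134,138,142,146,149,152,155,158,160,162,164,166,167,168,169,170],
    .dom [22,32,42,51,60,69,78,86,94,102,110,117,124,131,138,144,150,156,160,164,168,171,174,177,180,182,184,186,188,189,190,191,192]] 3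
    (by decide +kernel) (by decide +kernel)

/-- Hooks [39 35 29 25 21 17 13 9 5]. -/
def L193 : List BK := stepL true L119

theorem U193 : UL L193 := UL.step U119 true 193 20
    [.dom [18,29,39,49,59,68,77,85,93,101,109,116,123,130,137,143,149,155,159,163,167,171,174,177,180,183,185,187,189,191,192,193],
    .s1 5 9 [11,21,31,41,50,59,67,75,83,91,98,105,112,119,125,131,137,141,145,149,153,156,159,162,165,167,169,171,173,174,175]] 3
    (by decide +kernel) (by decide +kernel)

/-- Hooks [39 35 29 25 21 17 13 9 5 1]. -/
def L194 : List BK := stepL true L120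

theorem U194 : UL L194 := UL.step U120 true 194 20
    [.dom [10,20,30,39,48,57,65,73,81,89,96,103,110,117,123,129,135,141,146,151,156,160,164,168,172,175,178,181,184,186,188,190,192,193,194]] 3
    (by decide +kernel) (by decide +kernel)

/-- Hooks [39 35 31 27 21 17 13 9 3]. -/
def L195 : List BK := stepL false L121

theorem U195 : UL L195 := UL.step U121 false 195 20
    [.dom [16,26,36,46,55,64,73,82,90,98,106,113,120,127,134,141,147,153,159,164,169,174,178,181,184,187,190,192,193,194,195],
    .s1 5 8 [10,20,30,39,48,57,66,74,82,90,97,104,111,118,125,131,137,143,148,153,158,162,165,168,171,174,176,177,178,179]] 3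
    (by decide +kernel) (by decide +kernel)

/-- Hooks [39 35 29 25 21 17 13 9 5 3]. -/
def L196 : List BK := stepL true L122

theorem U196 : UL L196 := UL.step U122 true 196 20
    [.s1 4 11 [10,20,30,40,49,58,66,74,82,90,97,104,111,118,124,130,136,140,144,148,152,155,158,161,164,166,168,170,172,173,174],
    .dom [22,32,42,52,62,71,80,88,96,104,112,119,126,133,140,146,152,158,162,166,170,174,177,180,183,186,188,190,192,194,195,196]] 3
    (by decide +kernel) (by decide +kernel)

/-- Hooks [39 35 31 27 21 17 13 9 5]. -/
def L197 : List BK := stepL false L123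

theorem U197 : UL L197 := UL.step U123 false 197 20
    [.dom [18,29,39,49,59,68,77,86,95,103,111,119,126,133,140,147,153,159,165,169,173,177,180,183,186,189,192,194,195,196,197],
    .s1 5 9 [11,21,31,41,50,59,68,77,85,93,101,108,115,122,129,135,141,147,151,155,159,162,165,168,171,174,176,177,178,179]] 3
    (by decide +kernel) (by decide +kernel)

/-- Hooks [39 35 31 27 21 17 13 9 5 1]. -/
def L198 : List BK := stepL false L124

theorem U198 : UL L198 := UL.step U124 false 198 20
    [.dom [10,20,30,39,48,57,66,75,83,91,99,106,113,120,127,133,139,145,151,156,161,166,170,174,178,181,184,187,190,193,195,196,197,198]] 3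
    (by decide +kernel) (by decide +kernel)

/-- Hooks [39 35 31 27 23 19 13 9 3]. -/
def L199 : List BK := stepL false L125

theorem U199 : UL L199 := UL.step U125 false 199 20
    [.dom [16,28,38,48,58,67,76,85,94,102,110,118,126,133,140,147,153,159,165,170,175,180,185,189,191,193,195,196,197,198,199],
    .s1 5 8 [12,22,32,42,51,60,69,78,86,94,102,110,117,124,131,137,143,149,154,159,164,169,173,175,177,179,180,181,182,183]] 3
    (by decide +kernel) (by decide +kernel)

/-- Hooks [39 35 31 27 21 17 13 9 5 3]. -/
def L200 : List BK := stepL false L126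

theorem U200 : UL L200 := UL.step U126 false 200 20
    [.s1 4 11 [10,20,30,40,49,58,67,76,84,92,100,107,114,121,128,134,140,146,150,154,158,161,164,167,170,173,175,176,177,178],
    .dom [22,32,42,52,62,71,80,89,98,106,114,122,129,136,143,150,156,162,168,172,176,180,183,186,189,192,195,197,198,199,200]] 3
    (by decide +kernel) (by decide +kernel)

/-- Hooks [39 35 31 27 23 19 13 9 5]. -/
def L201 : List BK := stepL false L127

theorem U201 : UL L201 := UL.step U127 false 201 20
    [.dom [18,30,41,51,61,71,80,89,98,107,115,123,131,139,146,153,159,165,171,176,180,184,188,191,193,195,197,198,199,200,201],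
    .s1 5 9 [12,23,33,43,53,62,71,80,89,97,105,113,121,128,135,141,147,153,158,162,166,170,173,175,177,179,180,181,182,183]] 3
    (by decide +kernel) (by decide +kernel)

/-- Hooks [39 35 31 27 23 19 13 9 5 1]. -/
def L202 : List BK := stepL false L128

theorem U202 : UL L202 := UL.step U128 false 202 20
    [.dom [12,22,32,42,51,60,69,78,87,95,103,111,119,126,133,139,145,151,157,162,167,172,177,181,185,189,192,194,196,198,199,200,201,202]] 3
    (by decide +kernel) (by decide +kernel)

/-- Hooks [41 37 31 27 23 19 13 9 3]. -/
def L203 : List BK := stepL true L125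

theorem U203 : UL L203 := UL.step U125 true 203 21
    [.dom [16,28,39,49,59,69,78,87,96,104,112,120,128,135,142,149,155,161,167,172,177,182,187,191,195,197,199,201,202,203],
    .s1 5 8 [12,23,33,43,53,62,71,80,88,96,104,112,119,126,133,139,145,151,156,161,166,171,175,179,181,183,185,186,187]] 3
    (by decide +kernel) (by decide +kernel)

/-- Hooks [39 35 31 27 23 19 13 9 5 3]. -/
def L204 : List BK := stepL false L130

theorem U204 : UL L204 := UL.step U130 false 204 20
    [.s1 4 11 [12,22,32,42,52,61,70,79,88,96,104,112,120,127,134,140,146,152,157,161,165,169,172,174,176,178,179,180,181,182],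
    .dom [22,34,44,54,64,74,83,92,101,110,118,126,134,142,149,156,162,168,174,179,183,187,191,194,196,198,200,201,202,203,204]] 3
    (by decide +kernel) (by decide +kernel)

end Crest.Agent.Saxl.Table.Data
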