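import Crest.Agent.Lib.Saxl.TableData.Seeds
import Crest.Agent.Lib.Saxl.TableData.T04

/-! # The table of the universal shapes of the family (row 195, S0298): a generated part -/

set_option autoImplicit false
set_option maxRecDepth 100000

namespace Crest.Agent.Saxl.Table.Data

open Crest.Agent.Saxl Crest.Agent.Saxl.Family Crest.Agent.Saxl.Table

/-- Hooks [41 37 31 27 23 19 13 9 5]. -/
def L205 : List BK := stepL true L127

theorem U205 : UL L205 := UL.step U127 true 205 21
    [.dom [18,30,41,52,62,72,82,91,100,109,117,125,133,141,148,155,161,167,173,178,182,186,190,194,197,199,201,203,204,205],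
    .s1 5 9 [12,23,34,44,54,64,73,82,91,99,107,115,123,130,137,143,149,155,160,164,168,172,176,179,181,183,185,186,187]] 3
    (by decide +kernel) (by decide +kernel)

/-- Hooks [39 35 31 27 23 19 15 11 5 1]. -/
def L206 : List BK := stepL false L132

theorem U206 : UL L206 := UL.step U132 false 206 20
    [.dom [16,26,36,46,55,64,73,82,91,99,107,115,123,130,137,144,151,158,164,170,175,180,185,188,191,194,196,198,200,202,203,204,205,206],
    .s1 6 8 [10,20,30,39,48,57,66,75,83,91,99,107,114,121,128,135,142,148,154,159,164,169,172,175,178,180,182,184,186,187,188,189,190]] 3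
    (by decide +kernel) (by decide +kernel)

/-- Hooks [41 37 33 29 23 19 13 9 3]. -/
def L207 : List BK := stepL false L129

theorem U207 : UL L207 := UL.step U129 false 207 21
    [.dom [16,28,39,49,59,69,79,88,97,106,114,122,130,138,145,152,159,165,171,177,182,187,192,197,201,204,205,206,207],
    .s1 5 8 [12,23,33,43,53,63,72,81,90,98,106,114,122,129,136,143,149,155,161,166,171,176,181,185,188,189,190,191],
    .s2 5 8 [12,23,33,43,53,63,72,81,90,98,106,114,122,129,136,143,149,155,161,166,171,176,181,185,188,189,190,191]] 3
    (by decide +kernel) (by decide +kernel)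

/-- Hooks [39 35 31 27 23 19 15 11 7 1]. -/
def L208 : List BK := stepL false L134

theorem U208 : UL L208 := UL.step U134 false 208 20
    [.dom [18,30,40,50,60,70,79,88,97,106,114,122,130,138,145,152,159,166,172,176,180,184,187,190,193,196,198,200,202,204,205,206,207,208],
    .s1 6 9 [12,22,32,42,52,61,70,79,88,96,104,112,120,127,134,141,148,154,158,162,166,169,172,175,178,180,182,184,186,187,188,189,190]] 3
    (by decide +kernel) (by decide +kernel)

/-- Hooks [41 37 33 29 23 19 13 9 5]. -/
def L209 : List BK := stepL false L131

theorem U209 : UL L209 := UL.step U131 false 209 21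
    [.dom [18,30,41,52,62,72,82,92,101,110,119,127,135,143,151,158,165,171,177,183,188,192,196,200,203,206,207,208,209],
    .s1 5 9 [12,23,34,44,54,64,74,83,92,101,109,117,125,133,140,147,153,159,165,170,174,178,182,185,188,189,190,191],
    .s2 5 9 [12,23,34,44,54,64,74,83,92,101,109,117,125,133,140,147,153,159,165,170,174,178,182,185,188,189,190,191]] 3
    (by decide +kernel) (by decide +kernel)

/-- Hooks [39 35 31 27 23 19 15 11 7 3]. -/
def L210 : List BK := stepL false L136

theorem U210 : UL L210 := UL.step U136 false 210 20
    [.dom [10,20,30,39,48,57,66,74,82,90,98,105,112,119,126,132,138,144,150,155,160,165,170,174,178,182,186,189,192,195,198,200,202,204,206,207,208,209,210]] 3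
    (by decide +kernel) (by decide +kernel)

/-- Hooks [39 35 31 27 23 19 15 11 7 3 1]. -/
def L211 : List BK := stepL false L137

theorem U211 : UL L211 := UL.step U137 false 211 20
    [.s1 5 11 [12,22,32,42,51,60,69,78,87,95,103,111,119,126,133,140,147,153,157,161,165,168,171,174,177,179,181,183,185,186,187,188,189],
    .dom [22,34,44,54,64,73,82,91,100,109,117,125,133,141,148,155,162,169,175,179,183,187,190,193,196,199,201,203,205,207,208,209,210,211]] 3
    (by decide +kernel) (by decide +kernel)

/-- Hooks [41 37 31 27 23 19 15 11 7 1]. -/
def L212 : List BK := stepL true L134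

theorem U212 : UL L212 := UL.step U134 true 212 21
    [.dom [18,30,41,51,61,71,81,90,99,108,116,124,132,140,147,154,161,168,174,178,182,186,190,193,196,199,202,204,206,208,210,211,212],
    .s1 6 9 [12,23,33,43,53,63,72,81,90,98,106,114,122,129,136,143,150,156,160,164,168,172,175,178,181,184,186,188,190,192,193,194]] 3
    (by decide +kernel) (by decide +kernel)

/-- Hooks [39 35 31 27 23 19 15 11 7 5 1]. -/
def L213 : List BK := stepL false L139

theorem U213 : UL L213 := UL.step U139 false 213 20
    [.s1 4 12 [10,20,30,39,48,57,66,74,82,90,98,105,112,119,126,132,138,143,148,153,157,161,165,168,171,174,177,179,181,183,185,186,187,188,189],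
    .dom [24,34,44,54,63,72,81,90,98,106,114,122,129,136,143,150,156,162,167,172,177,181,185,189,192,195,198,201,203,205,207,209,210,211,212,213]] 3
    (by decide +kernel) (by decide +kernel)

/-- Hooks [41 37 31 27 23 19 15 11 7 3]. -/
def L214 : List BK := stepL true L136

theorem U214 : UL L214 := UL.step U136 true 214 21
    [.dom [11,21,31,41,50,59,68,76,84,92,100,107,114,121,128,134,140,146,152,157,162,167,172,176,180,184,188,192,195,198,201,204,206,208,210,212,213,214]] 3
    (by decide +kernel) (by decide +kernel)

/-- Hooks [41 37 31 27 23 19 15 11 7 3 1]. -/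
def L215 : List BK := stepL true L137

theorem U215 : UL L215 := UL.step U137 true 215 21
    [.s1 5 11 [12,23,33,43,53,62,71,80,89,97,105,113,121,128,135,142,149,155,159,163,167,171,174,177,180,183,185,187,189,191,192,193],
    .dom [22,34,45,55,65,75,84,93,102,111,119,127,135,143,150,157,164,171,177,181,185,189,193,196,199,202,205,207,209,211,213,214,215]] 3
    (by decide +kernel) (by decide +kernel)

/-- Hooks [41 37 33 29 23 19 15 11 7 1]. -/
def L216 : List BK := stepL false L138

theorem U216 : UL L216 := UL.step U138 false 216 21
    [.dom [18,30,41,51,61,71,81,91,100,109,118,126,134,142,150,157,164,171,178,184,188,192,196,199,202,205,208,211,213,214,215,216],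
    .s1 6 9 [12,23,33,43,53,63,73,82,91,100,108,116,124,132,139,146,153,160,166,170,174,178,181,184,187,190,193,195,196,197,198]] 3
    (by decide +kernel) (by decide +kernel)

/-- Hooks [41 37 31 27 23 19 15 11 7 5 1]. -/
def L217 : List BK := stepL true L139

theorem U217 : UL L217 := UL.step U139 true 217 21
    [.s1 4 12 [11,21,31,41,50,59,68,76,84,92,100,107,114,121,128,134,140,145,150,155,159,163,167,171,174,177,180,183,185,187,189,191,192,193],
    .dom [24,35,45,55,65,74,83,92,100,108,116,124,131,138,145,152,158,164,169,174,179,183,187,191,195,198,201,204,207,209,211,213,215,216,217]] 3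
    (by decide +kernel) (by decide +kernel)

/-- Hooks [41 37 33 29 23 19 15 11 7 3]. -/
def L218 : List BK := stepL false L140

theorem U218 : UL L218 := UL.step U140 false 218 21
    [.dom [11,21,31,41,51,60,69,78,86,94,102,110,117,124,131,138,144,150,156,162,167,172,177,182,186,190,194,198,201,204,207,210,213,215,216,217,218]] 3
    (by decide +kernel) (by decide +kernel)

/-- Hooks [41 37 33 29 23 19 15 11 7 3 1]. -/
def L219 : List BK := stepL false L141

theorem U219 : UL L219 := UL.step U141 false 219 21
    [.s1 5 11 [12,23,33,43,53,63,72,81,90,99,107,115,123,131,138,145,152,159,165,169,173,177,180,183,186,189,192,194,195,196,197],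
    .dom [22,34,45,55,65,75,85,94,103,112,121,129,137,145,153,160,167,174,181,187,191,195,199,202,205,208,211,214,216,217,218,219]] 3
    (by decide +kernel) (by decide +kernel)

/-- Hooks [41 37 33 29 25 21 15 11 7 1]. -/
def L220 : List BK := stepL false L142

theorem U220 : UL L220 := UL.step U142 false 220 21
    [.dom [18,30,42,53,63,73,83,93,103,112,121,130,139,147,155,163,170,177,184,190,195,199,203,207,210,212,214,216,217,218,219,220],
    .s1 6 9 [12,24,35,45,55,65,75,85,94,103,112,121,129,137,145,152,159,166,172,177,181,185,189,192,194,196,198,199,200,201,202]] 3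
    (by decide +kernel) (by decide +kernel)

end Crest.Agent.Saxl.Table.Data
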