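import Crest.Agent.Lib.Saxl.TableData.Seeds
import Crest.Agent.Lib.Saxl.TableData.T04
import Crest.Agent.Lib.Saxl.TableData.T05

/-! # The table of the universal shapes of the family (row 195, S0298): a generated part -/

set_option autoImplicit false
set_option maxRecDepth 100000

namespace Crest.Agent.Saxl.Table.Data

open Crest.Agent.Saxl Crest.Agent.Saxl.Family Crest.Agent.Saxl.Table

/-- Hooks [41 37 33 29 23 19 15 11 7 5 1]. -/
def L221 : List BK := stepL false L143

theorem U221 : UL L221 := UL.step U143 false 221 21
    [.s1 4 12 [11,21,31,41,51,60,69,78,86,94,102,110,117,124,131,138,144,150,155,160,165,169,173,177,180,183,186,189,192,194,195,196,197],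
    .dom [24,35,45,55,65,75,84,93,102,110,118,126,134,141,148,155,162,168,174,179,184,189,193,197,201,204,207,210,213,216,218,219,220,221]] 3
    (by decide +kernel) (by decide +kernel)

/-- Hooks [41 37 33 29 25 21 15 11 7 3]. -/
def L222 : List BK := stepL false L144

theorem U222 : UL L222 := UL.step U144 false 222 21
    [.dom [12,23,33,43,53,63,72,81,90,99,107,115,123,130,137,144,150,156,162,168,173,178,183,188,193,197,201,205,209,212,214,216,218,219,220,221,222]] 3
    (by decide +kernel) (by decide +kernel)

/-- Hooks [41 37 33 29 25 21 15 11 7 3 1]. -/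
def L223 : List BK := stepL false L145

theorem U223 : UL L223 := UL.step U145 false 223 21
    [.s1 5 11 [12,24,35,45,55,65,75,84,93,102,111,120,128,136,144,151,158,165,171,176,180,184,188,191,193,195,197,198,199,200,201],
    .dom [22,34,46,57,67,77,87,97,106,115,124,133,142,150,158,166,173,180,187,193,198,202,206,210,213,215,217,219,220,221,222,223]] 3
    (by decide +kernel) (by decide +kernel)

/-- Hooks [43 39 33 29 25 21 15 11 7 1]. -/
def L224 : List BK := stepL true L142

theorem U224 : UL L224 := UL.step U142 true 224 22
    [.dom [18,30,42,53,64,75,85,95,105,114,123,132,141,149,157,165,172,179,186,192,197,201,205,209,213,216,218,220,222,223,224],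
    .s1 6 9 [12,24,35,46,57,67,77,87,96,105,114,123,131,139,147,154,161,168,174,179,183,187,191,195,198,200,202,204,205,206],
    .s2 6 9 [12,24,35,46,57,67,77,87,96,105,114,123,131,139,147,154,161,168,174,179,183,187,191,195,198,200,202,204,205,206]] 3
    (by decide +kernel) (by decide +kernel)

/-- Hooks [41 37 33 29 25 21 15 11 7 5 1]. -/
def L225 : List BK := stepL false L147

theorem U225 : UL L225 := UL.step U147 false 225 21
    [.s1 4 12 [12,23,33,43,53,63,72,81,90,99,107,115,123,130,137,144,150,156,161,166,171,176,180,184,188,191,193,195,197,198,199,200,201],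
    .dom [24,36,47,57,67,77,87,96,105,114,123,131,139,147,154,161,168,174,180,185,190,195,200,204,208,212,215,217,219,221,222,223,224,225]] 3
    (by decide +kernel) (by decide +kernel)

/-- Hooks [41 37 33 29 25 21 17 13 7 3]. -/
def L226 : List BK := stepL false L148

theorem U226 : UL L226 := UL.step U148 false 226 21
    [.dom [16,27,37,47,57,67,76,85,94,103,111,119,127,135,142,149,156,163,169,175,181,186,191,196,201,205,208,211,214,216,218,220,222,223,224,225,226]] 3
    (by decide +kernel) (by decide +kernel)

/-- Hooks [43 39 33 29 25 21 15 11 7 3 1]. -/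
def L227 : List BK := stepL true L145

theorem U227 : UL L227 := UL.step U145 true 227 22
    [.dom [22,34,46,57,68,79,89,99,108,117,126,135,144,152,160,168,175,182,189,195,200,204,208,212,216,219,221,223,225,226,227],
    .s1 5 11 [12,24,35,46,57,67,77,86,95,104,113,122,130,138,146,153,160,167,173,178,182,186,190,194,197,199,201,203,204,205]] 3
    (by decide +kernel) (by decide +kernel)

/-- Hooks [41 37 33 29 25 21 17 13 9 3]. -/
def L228 : List BK := stepL false L150

theorem U228 : UL L228 := UL.step U150 false 228 21
    [.dom [18,31,42,52,62,72,82,91,100,109,118,126,134,142,150,157,164,171,177,182,187,192,196,200,204,207,210,213,216,218,220,222,224,225,226,227,228],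
    .s1 6 9 [13,24,34,44,54,64,73,82,91,100,108,116,124,132,139,146,153,159,164,169,174,178,182,186,189,192,195,198,200,202,204,206,207,208,209,210]] 3
    (by decide +kernel) (by decide +kernel)

/-- Hooks [43 39 33 29 25 21 15 11 7 5 1]. -/
def L229 : List BK := stepL true L147

theorem U229 : UL L229 := UL.step U147 true 229 22
    [.s1 4 12 [12,23,34,45,55,65,74,83,92,101,109,117,125,132,139,146,152,158,163,168,173,178,182,186,190,194,197,199,201,203,204,205],
    .dom [24,36,47,58,69,79,89,98,107,116,125,133,141,149,156,163,170,176,182,187,192,197,202,206,210,214,218,221,223,225,227,228,229]] 3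
    (by decide +kernel) (by decide +kernel)

/-- Hooks [41 37 33 29 25 21 17 13 9 5]. -/
def L230 : List BK := stepL false L152

theorem U230 : UL L230 := UL.step U152 false 230 21
    [.dom [20,31,41,51,61,71,80,89,98,107,116,124,132,140,148,155,162,169,176,182,188,194,198,202,206,209,212,215,218,220,222,224,226,227,228,229,230],
    .s1 5 10 [11,21,31,41,51,60,69,78,87,96,104,112,120,128,135,142,149,156,162,168,174,178,182,186,189,192,195,198,200,202,204,206,207,208,209,210]] 3
    (by decide +kernel) (by decide +kernel)

/-- Hooks [41 37 33 29 25 21 17 13 9 5 1]. -/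
def L231 : List BK := stepL false L153

theorem U231 : UL L231 := UL.step U153 false 231 21
    [.dom [11,22,32,42,52,62,71,80,89,98,106,114,122,130,137,144,151,158,164,170,176,181,186,191,195,199,203,207,210,213,216,219,221,223,225,227,228,229,230,231]] 3
    (by decide +kernel) (by decide +kernel)

/-- Hooks [43 39 33 29 25 21 17 13 9 3]. -/
def L232 : List BK := stepL true L150

theorem U232 : UL L232 := UL.step U150 true 232 22
    [.dom [18,31,42,53,64,74,84,93,102,111,120,128,136,144,152,159,166,173,179,184,189,194,198,202,206,210,213,216,219,222,224,226,228,230,231,232],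
    .s1 6 9 [13,24,35,46,56,66,75,84,93,102,110,118,126,134,141,148,155,161,166,171,176,180,184,188,192,195,198,201,204,206,208,210,212,213,214]] 3
    (by decide +kernel) (by decide +kernel)

/-- Hooks [41 37 33 29 25 21 17 13 9 5 3]. -/
def L233 : List BK := stepL false L155

theorem U233 : UL L233 := UL.step U155 false 233 21
    [.s1 5 12 [13,24,35,45,55,65,75,84,93,102,111,120,128,136,144,152,159,166,173,177,181,185,188,191,194,197,199,201,203,205,206,207,208,209],
    .dom [24,37,48,59,69,79,89,99,108,117,126,135,144,152,160,168,176,183,190,197,201,205,209,212,215,218,221,223,225,227,229,230,231,232,233]] 3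
    (by decide +kernel) (by decide +kernel)

/-- Hooks [43 39 33 29 25 21 17 13 9 5]. -/
def L234 : List BK := stepL true L152

theorem U234 : UL L234 := UL.step U152 true 234 22
    [.dom [20,31,42,53,63,73,82,91,100,109,118,126,134,142,150,157,164,171,178,184,190,196,200,204,208,212,215,218,221,224,226,228,230,232,233,234],
    .s1 5 10 [11,22,33,43,53,62,71,80,89,98,106,114,122,130,137,144,151,158,164,170,176,180,184,188,192,195,198,201,204,206,208,210,212,213,214]] 3
    (by decide +kernel) (by decide +kernel)

/-- Hooks [43 39 33 29 25 21 17 13 9 5 1]. -/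
def L235 : List BK := stepL true L153

theorem U235 : UL L235 := UL.step U153 true 235 22
    [.dom [11,22,33,44,54,64,73,82,91,100,108,116,124,132,139,146,153,160,166,172,178,183,188,193,197,201,205,209,213,216,219,222,225,227,229,231,233,234,235]] 3
    (by decide +kernel) (by decide +kernel)

end Crest.Agent.Saxl.Table.Data
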