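import Crest.Agent.Lib.Saxl.TableData.Seeds
import Crest.Agent.Lib.Saxl.TableData.T05

/-! # The table of the universal shapes of the family (row 195, S0298): a generated part -/

set_option autoImplicit false
set_option maxRecDepth 100000

namespace Crest.Agent.Saxl.Table.Data

open Crest.Agent.Saxl Crest.Agent.Saxl.Family Crest.Agent.Saxl.Table

/-- Hooks [43 39 35 31 25 21 17 13 9 3]. -/
def L236 : List BK := stepL false L154

theorem U236 : UL L236 := UL.step U154 false 236 22
    [.dom [18,31,42,53,64,74,84,94,104,113,122,130,138,146,154,162,169,176,183,189,194,199,204,208,212,216,219,222,225,228,231,233,234,235,236],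
    .s1 6 9 [13,24,35,46,56,66,76,86,95,104,112,120,128,136,144,151,158,165,171,176,181,186,190,194,198,201,204,207,210,213,215,216,217,218]] 3
    (by decide +kernel) (by decide +kernel)

/-- Hooks [43 39 33 29 25 21 17 13 9 5 3]. -/
def L237 : List BK := stepL true L155

theorem U237 : UL L237 := UL.step U155 true 237 22
    [.s1 5 12 [13,24,35,46,57,67,77,86,95,104,113,122,130,138,146,154,161,168,175,179,183,187,191,194,197,200,203,205,207,209,211,212,213],
    .dom [24,37,48,59,70,81,91,101,110,119,128,137,146,154,162,170,178,185,192,199,203,207,211,215,218,221,224,227,229,231,233,235,236,237]] 3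
    (by decide +kernel) (by decide +kernel)

/-- Hooks [43 39 35 31 25 21 17 13 9 5]. -/
def L238 : List BK := stepL false L156

theorem U238 : UL L238 := UL.step U156 false 238 22
    [.dom [20,31,42,53,63,73,83,93,102,111,120,128,136,144,152,160,167,174,181,188,194,200,206,210,214,218,221,224,227,230,233,235,236,237,238],
    .s1 5 10 [11,22,33,43,53,63,73,82,91,100,108,116,124,132,140,147,154,161,168,174,180,186,190,194,198,201,204,207,210,213,215,216,217,218]] 3
    (by decide +kernel) (by decide +kernel)

/-- Hooks [43 39 35 31 25 21 17 13 9 5 1]. -/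
def L239 : List BK := stepL false L157

theorem U239 : UL L239 := UL.step U157 false 239 22
    [.dom [11,22,33,44,54,64,74,84,93,102,110,118,126,134,142,149,156,163,170,176,182,188,193,198,203,207,211,215,219,222,225,228,231,234,236,237,238,239]] 3
    (by decide +kernel) (by decide +kernel)

/-- Hooks [43 39 35 31 27 23 17 13 9 3]. -/
def L240 : List BK := stepL false L158

theorem U240 : UL L240 := UL.step U158 false 240 22
    [.dom [18,31,43,54,65,76,86,96,106,116,125,134,143,152,160,168,175,182,189,195,200,205,210,215,219,223,227,230,232,234,236,237,238,239,240],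
    .s1 6 9 [13,25,36,47,58,68,78,88,98,107,116,125,134,142,150,157,164,171,177,182,187,192,197,201,205,209,212,214,216,218,219,220,221,222]] 3
    (by decide +kernel) (by decide +kernel)

/-- Hooks [43 39 35 31 25 21 17 13 9 5 3]. -/
def L241 : List BK := stepL false L159

theorem U241 : UL L241 := UL.step U159 false 241 22
    [.s1 5 12 [13,24,35,46,57,67,77,87,97,106,115,124,132,140,148,156,164,171,178,185,189,193,197,200,203,206,209,212,214,215,216,217],
    .dom [24,37,48,59,70,81,91,101,111,121,130,139,148,156,164,172,180,188,195,202,209,213,217,221,224,227,230,233,236,238,239,240,241]] 3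
    (by decide +kernel) (by decide +kernel)

/-- Hooks [43 39 35 31 27 23 17 13 9 5]. -/
def L242 : List BK := stepL false L160

theorem U242 : UL L242 := UL.step U160 false 242 22
    [.dom [20,32,43,54,65,75,85,95,105,114,123,132,141,150,158,166,173,180,187,194,200,206,212,217,221,225,229,232,234,236,238,239,240,241,242],
    .s1 5 10 [12,23,34,45,55,65,75,85,94,103,112,121,130,138,146,153,160,167,174,180,186,192,197,201,205,209,212,214,216,218,219,220,221,222]] 3
    (by decide +kernel) (by decide +kernel)

/-- Hooks [43 39 35 31 27 23 17 13 9 5 1]. -/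
def L243 : List BK := stepL false L161

theorem U243 : UL L243 := UL.step U161 false 243 22
    [.dom [12,23,34,45,56,66,76,86,96,105,114,123,132,140,148,155,162,169,176,182,188,194,199,204,209,214,218,222,226,230,233,235,237,239,240,241,242,243]] 3
    (by decide +kernel) (by decide +kernel)

/-- Hooks [45 41 35 31 27 23 17 13 9 3]. -/
def L244 : List BK := stepL true L158

theorem U244 : UL L244 := UL.step U158 true 244 23
    [.dom [18,31,43,55,66,77,88,98,108,118,127,136,145,154,162,170,177,184,191,197,202,207,212,217,221,225,229,233,236,238,240,242,243,244],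
    .s1 6 9 [13,25,37,48,59,70,80,90,100,109,118,127,136,144,152,159,166,173,179,184,189,194,199,203,207,211,215,218,220,222,224,225,226]] 3
    (by decide +kernel) (by decide +kernel)

/-- Hooks [43 39 35 31 27 23 17 13 9 5 3]. -/
def L245 : List BK := stepL false L163

theorem U245 : UL L245 := UL.step U163 false 245 22
    [.s1 5 12 [13,25,36,47,58,69,79,89,99,109,118,127,136,145,154,162,170,177,184,191,196,200,204,208,211,213,215,217,218,219,220,221],
    .dom [24,37,49,60,71,82,93,103,113,123,133,142,151,160,169,178,186,194,201,208,215,220,224,228,232,235,237,239,241,242,243,244,245]] 3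
    (by decide +kernel) (by decide +kernel)

/-- Hooks [45 41 35 31 27 23 17 13 9 5]. -/
def L246 : List BK := stepL true L160

theorem U246 : UL L246 := UL.step U160 true 246 23
    [.dom [20,32,44,55,66,77,87,97,107,116,125,134,143,152,160,168,175,182,189,196,202,208,214,219,223,227,231,235,238,240,242,244,245,246],
    .s1 5 10 [12,24,35,46,57,67,77,87,96,105,114,123,132,140,148,155,162,169,176,182,188,194,199,203,207,211,215,218,220,222,224,225,226]] 3
    (by decide +kernel) (by decide +kernel)

/-- Hooks [43 39 35 31 27 23 19 15 9 5 1]. -/
def L247 : List BK := stepL false L165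

theorem U247 : UL L247 := UL.step U165 false 247 22
    [.dom [16,27,38,49,60,70,80,90,100,109,118,127,136,144,152,160,168,175,182,189,195,201,207,212,217,222,226,229,232,235,237,239,241,243,244,245,246,247]] 3
    (by decide +kernel) (by decide +kernel)

/-- Hooks [45 41 37 33 27 23 17 13 9 3]. -/
def L248 : List BK := stepL false L162

theorem U248 : UL L248 := UL.step U162 false 248 23
    [.dom [18,31,43,55,66,77,88,99,109,119,129,138,147,156,164,172,180,187,194,201,207,212,217,222,227,231,235,239,242,245,246,247,248],
    .s1 6 9 [13,25,37,48,59,70,81,91,101,111,120,129,138,146,154,162,169,176,183,189,194,199,204,209,213,217,221,224,227,228,229,230]] 3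
    (by decide +kernel) (by decide +kernel)

/-- Hooks [45 41 35 31 27 23 17 13 9 5 3]. -/
def L249 : List BK := stepL true L163

theorem U249 : UL L249 := UL.step U163 true 249 23
    [.s1 5 12 [13,25,37,48,59,70,81,91,101,111,120,129,138,147,156,164,172,179,186,193,198,202,206,210,214,217,219,221,223,224,225],
    .dom [24,37,49,61,72,83,94,105,115,125,135,144,153,162,171,180,188,196,203,210,217,222,226,230,234,238,241,243,245,247,248,249],
    .s2 5 12 [13,25,37,48,59,70,81,91,101,111,120,129,138,147,156,164,172,179,186,193,198,202,206,210,214,217,219,221,223,224,225]] 3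
    (by decide +kernel) (by decide +kernel)

end Crest.Agent.Saxl.Table.Data
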