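import Crest.Agent.Lib.Saxl.TableData.T00
import Crest.Agent.Lib.Saxl.TableData.T01
import Crest.Agent.Lib.Saxl.TableData.T02
import Crest.Agent.Lib.Saxl.TableData.T03
import Crest.Agent.Lib.Saxl.TableData.T04
import Crest.Agent.Lib.Saxl.TableData.T05
import Crest.Agent.Lib.Saxl.TableData.T06
import Crest.Agent.Lib.Saxl.TableData.T07
import Crest.Agent.Lib.Saxl.TableData.T08
import Crest.Agent.Lib.Saxl.TableData.T09
import Crest.Agent.Lib.Saxl.TableData.T10
import Crest.Agent.Lib.Saxl.TableData.T11
import Crest.Agent.Lib.Saxl.TableData.T12
import Crest.Agent.Lib.Saxl.TableData.T13
import Crest.Agent.Lib.Saxl.TableData.T14
import Crest.Agent.Lib.Saxl.TableData.T15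
import Crest.Agent.Lib.Saxl.TableData.T16
import Crest.Agent.Lib.Saxl.TableData.T17
import Crest.Agent.Lib.Saxl.TableData.T18
import Crest.Agent.Lib.Saxl.TableData.T19
import Crest.Agent.Lib.Saxl.KronN33
import Crest.Agent.Lib.Saxl.KronN35
import Crest.Agent.Lib.Saxl.KronSmall

/-!
# The table: a universal shape for every `n` of `30..349`, `350`, `377`, `432` (row 195, S0298)
-/

set_option autoImplicit false
set_option maxRecDepth 100000

namespace Crest.Agent.Saxl.Table.Data

open Crest.Agent.Saxl Crest.Agent.Saxl.Family Crest.Agent.Saxl.Table

/-- A universal Young diagram of size `n`. -/
abbrev HasUni (n : ℕ) : Prop := ∃ μ : YoungDiagram, μ.cells.card = n ∧ Saxl.Universal μ.cells n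

theorem hasUni_of_uni {lam : List ℕ} {n : ℕ} (hs : Kron.sd lam = true) (hn : lam.sum = n)
    (h : ∃ h1 : lam.SortedGE, Kron.Uni (YoungDiagram.ofRowLens lam h1)) : HasUni n := by
  obtain ⟨D, hD, hU⟩ := Kron.uni_card hs h
  refine ⟨D, ?_, ?_⟩
  · show D.card = n
    omega
  · subst hn
    rw [← hD]
    exact hU

/-- The table. -/
theorem hT_table (h52 : HasUni 52) (h71 : HasUni 71) (h75 : HasUni 75) (h133 : HasUni 133) (n : ℕ) (h30 : 30 ≤ n) (hE : ExcN n) : HasUni n := by
  rcases hE with h | h | h | h
  · interval_cases n
    · exact U30.diagram (by decide +kernel)
    · exact U31.diagram (by decide +kernel)
    · exact U32.diagram (by decide +kernel)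
    · exact hasUni_of_uni (lam := [11,6,4,3,2,2,1,1,1,1,1]) (by decide +kernel) (by decide +kernel) Kron.uni_11_6_4_3_2_2_1_1_1_1_1
    · exact U34.diagram (by decide +kernel)
    · exact hasUni_of_uni (lam := [11,7,4,3,2,2,2,1,1,1,1]) (by decide +kernel) (by decide +kernel) Kron.uni_11_7_4_3_2_2_2_1_1_1_1
    · exact U36.diagram (by decide +kernel)
    · exact U37.diagram (by decide +kernel)
    · exact U38.diagram (by decide +kernel)
    · exact U39.diagram (by decide +kernel)
    · exact U40.diagram (by decide +kernel)
    · exact U41.diagram (by decide +kernel)
    · exact U42.diagram (by decide +kernel)
    · exact U43.diagram (by decide +kernel)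
    · exact U44.diagram (by decide +kernel)
    · exact U45.diagram (by decide +kernel)
    · exact U46.diagram (by decide +kernel)
    · exact U47.diagram (by decide +kernel)
    · exact U48.diagram (by decide +kernel)
    · exact U49.diagram (by decide +kernel)
    · exact U50.diagram (by decide +kernel)
    · exact U51.diagram (by decide +kernel)
    · exact h52
    · exact U53.diagram (by decide +kernel)
    · exact U54.diagram (by decide +kernel)
    · exact U55.diagram (by decide +kernel)
    · exact U56.diagram (by decide +kernel)
    · exact U57.diagram (by decide +kernel)
    · exact U58.diagram (by decide +kernel)
    · exact U59.diagram (by decide +kernel)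
    · exact U60.diagram (by decide +kernel)
    · exact U61.diagram (by decide +kernel)
    · exact U62.diagram (by decide +kernel)
    · exact U63.diagram (by decide +kernel)
    · exact U64.diagram (by decide +kernel)
    · exact U65.diagram (by decide +kernel)
    · exact U66.diagram (by decide +kernel)
    · exact U67.diagram (by decide +kernel)
    · exact U68.diagram (by decide +kernel)
    · exact U69.diagram (by decide +kernel)
    · exact U70.diagram (by decide +kernel)
    · exact h71
    · exact U72.diagram (by decide +kernel)
    · exact U73.diagram (by decide +kernel)
    · exact U74.diagram (by decide +kernel)
    · exact h75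
    · exact U76.diagram (by decide +kernel)
    · exact U77.diagram (by decide +kernel)
    · exact U78.diagram (by decide +kernel)
    · exact U79.diagram (by decide +kernel)
    · exact U80.diagram (by decide +kernel)
    · exact U81.diagram (by decide +kernel)
    · exact U82.diagram (by decide +kernel)
    · exact U83.diagram (by decide +kernel)
    · exact U84.diagram (by decide +kernel)
    · exact U85.diagram (by decide +kernel)
    · exact U86.diagram (by decide +kernel)
    · exact U87.diagram (by decide +kernel)
    · exact U88.diagram (by decide +kernel)
    · exact U89.diagram (by decide +kernel)
    · exact U90.diagram (by decide +kernel)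
    · exact U91.diagram (by decide +kernel)
    · exact U92.diagram (by decide +kernel)
    · exact U93.diagram (by decide +kernel)
    · exact U94.diagram (by decide +kernel)
    · exact U95.diagram (by decide +kernel)
    · exact U96.diagram (by decide +kernel)
    · exact U97.diagram (by decide +kernel)
    · exact U98.diagram (by decide +kernel)
    · exact U99.diagram (by decide +kernel)
    · exact U100.diagram (by decide +kernel)
    · exact U101.diagram (by decide +kernel)
    · exact U102.diagram (by decide +kernel)
    · exact U103.diagram (by decide +kernel)
    · exact U104.diagram (by decide +kernel)
    · exact U105.diagram (by decide +kernel)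
    · exact U106.diagram (by decide +kernel)
    · exact U107.diagram (by decide +kernel)
    · exact U108.diagram (by decide +kernel)
    · exact U109.diagram (by decide +kernel)
    · exact U110.diagram (by decide +kernel)
    · exact U111.diagram (by decide +kernel)
    · exact U112.diagram (by decide +kernel)
    · exact U113.diagram (by decide +kernel)
    · exact U114.diagram (by decide +kernel)
    · exact U115.diagram (by decide +kernel)
    · exact U116.diagram (by decide +kernel)
    · exact U117.diagram (by decide +kernel)
    · exact U118.diagram (by decide +kernel)
    · exact U119.diagram (by decide +kernel)
    · exact U120.diagram (by decide +kernel)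
    · exact U121.diagram (by decide +kernel)
    · exact U122.diagram (by decide +kernel)
    · exact U123.diagram (by decide +kernel)
    · exact U124.diagram (by decide +kernel)
    · exact U125.diagram (by decide +kernel)
    · exact U126.diagram (by decide +kernel)
    · exact U127.diagram (by decide +kernel)
    · exact U128.diagram (by decide +kernel)
    · exact U129.diagram (by decide +kernel)
    · exact U130.diagram (by decide +kernel)
    · exact U131.diagram (by decide +kernel)
    · exact U132.diagram (by decide +kernel)
    · exact h133
    · exact U134.diagram (by decide +kernel)
    · exact U135.diagram (by decide +kernel)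
    · exact U136.diagram (by decide +kernel)
    · exact U137.diagram (by decide +kernel)
    · exact U138.diagram (by decide +kernel)
    · exact U139.diagram (by decide +kernel)
    · exact U140.diagram (by decide +kernel)
    · exact U141.diagram (by decide +kernel)
    · exact U142.diagram (by decide +kernel)
    · exact U143.diagram (by decide +kernel)
    · exact U144.diagram (by decide +kernel)
    · exact U145.diagram (by decide +kernel)
    · exact U146.diagram (by decide +kernel)
    · exact U147.diagram (by decide +kernel)
    · exact U148.diagram (by decide +kernel)
    · exact U149.diagram (by decide +kernel)
    · exact U150.diagram (by decide +kernel)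
    · exact U151.diagram (by decide +kernel)
    · exact U152.diagram (by decide +kernel)
    · exact U153.diagram (by decide +kernel)
    · exact U154.diagram (by decide +kernel)
    · exact U155.diagram (by decide +kernel)
    · exact U156.diagram (by decide +kernel)
    · exact U157.diagram (by decide +kernel)
    · exact U158.diagram (by decide +kernel)
    · exact U159.diagram (by decide +kernel)
    · exact U160.diagram (by decide +kernel)
    · exact U161.diagram (by decide +kernel)
    · exact U162.diagram (by decide +kernel)
    · exact U163.diagram (by decide +kernel)
    · exact U164.diagram (by decide +kernel)
    · exact U165.diagram (by decide +kernel)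
    · exact U166.diagram (by decide +kernel)
    · exact U167.diagram (by decide +kernel)
    · exact U168.diagram (by decide +kernel)
    · exact U169.diagram (by decide +kernel)
    · exact U170.diagram (by decide +kernel)
    · exact U171.diagram (by decide +kernel)
    · exact U172.diagram (by decide +kernel)
    · exact U173.diagram (by decide +kernel)
    · exact U174.diagram (by decide +kernel)
    · exact U175.diagram (by decide +kernel)
    · exact U176.diagram (by decide +kernel)
    · exact U177.diagram (by decide +kernel)
    · exact U178.diagram (by decide +kernel)
    · exact U179.diagram (by decide +kernel)
    · exact U180.diagram (by decide +kernel)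
    · exact U181.diagram (by decide +kernel)
    · exact U182.diagram (by decide +kernel)
    · exact U183.diagram (by decide +kernel)
    · exact U184.diagram (by decide +kernel)
    · exact U185.diagram (by decide +kernel)
    · exact U186.diagram (by decide +kernel)
    · exact U187.diagram (by decide +kernel)
    · exact U188.diagram (by decide +kernel)
    · exact U189.diagram (by decide +kernel)
    · exact U190.diagram (by decide +kernel)
    · exact U191.diagram (by decide +kernel)
    · exact U192.diagram (by decide +kernel)
    · exact U193.diagram (by decide +kernel)
    · exact U194.diagram (by decide +kernel)
    · exact U195.diagram (by decide +kernel)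
    · exact U196.diagram (by decide +kernel)
    · exact U197.diagram (by decide +kernel)
    · exact U198.diagram (by decide +kernel)
    · exact U199.diagram (by decide +kernel)
    · exact U200.diagram (by decide +kernel)
    · exact U201.diagram (by decide +kernel)
    · exact U202.diagram (by decide +kernel)
    · exact U203.diagram (by decide +kernel)
    · exact U204.diagram (by decide +kernel)
    · exact U205.diagram (by decide +kernel)
    · exact U206.diagram (by decide +kernel)
    · exact U207.diagram (by decide +kernel)
    · exact U208.diagram (by decide +kernel)
    · exact U209.diagram (by decide +kernel)
    · exact U210.diagram (by decide +kernel)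
    · exact U211.diagram (by decide +kernel)
    · exact U212.diagram (by decide +kernel)
    · exact U213.diagram (by decide +kernel)
    · exact U214.diagram (by decide +kernel)
    · exact U215.diagram (by decide +kernel)
    · exact U216.diagram (by decide +kernel)
    · exact U217.diagram (by decide +kernel)
    · exact U218.diagram (by decide +kernel)
    · exact U219.diagram (by decide +kernel)
    · exact U220.diagram (by decide +kernel)
    · exact U221.diagram (by decide +kernel)
    · exact U222.diagram (by decide +kernel)
    · exact U223.diagram (by decide +kernel)
    · exact U224.diagram (by decide +kernel)
    · exact U225.diagram (by decide +kernel)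
    · exact U226.diagram (by decide +kernel)
    · exact U227.diagram (by decide +kernel)
    · exact U228.diagram (by decide +kernel)
    · exact U229.diagram (by decide +kernel)
    · exact U230.diagram (by decide +kernel)
    · exact U231.diagram (by decide +kernel)
    · exact U232.diagram (by decide +kernel)
    · exact U233.diagram (by decide +kernel)
    · exact U234.diagram (by decide +kernel)
    · exact U235.diagram (by decide +kernel)
    · exact U236.diagram (by decide +kernel)
    · exact U237.diagram (by decide +kernel)
    · exact U238.diagram (by decide +kernel)
    · exact U239.diagram (by decide +kernel)
    · exact U240.diagram (by decide +kernel)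
    · exact U241.diagram (by decide +kernel)
    · exact U242.diagram (by decide +kernel)
    · exact U243.diagram (by decide +kernel)
    · exact U244.diagram (by decide +kernel)
    · exact U245.diagram (by decide +kernel)
    · exact U246.diagram (by decide +kernel)
    · exact U247.diagram (by decide +kernel)
    · exact U248.diagram (by decide +kernel)
    · exact U249.diagram (by decide +kernel)
    · exact U250.diagram (by decide +kernel)
    · exact U251.diagram (by decide +kernel)
    · exact U252.diagram (by decide +kernel)
    · exact U253.diagram (by decide +kernel)
    · exact U254.diagram (by decide +kernel)
    · exact U255.diagram (by decide +kernel)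
    · exact U256.diagram (by decide +kernel)
    · exact U257.diagram (by decide +kernel)
    · exact U258.diagram (by decide +kernel)
    · exact U259.diagram (by decide +kernel)
    · exact U260.diagram (by decide +kernel)
    · exact U261.diagram (by decide +kernel)
    · exact U262.diagram (by decide +kernel)
    · exact U263.diagram (by decide +kernel)
    · exact U264.diagram (by decide +kernel)
    · exact U265.diagram (by decide +kernel)
    · exact U266.diagram (by decide +kernel)
    · exact U267.diagram (by decide +kernel)
    · exact U268.diagram (by decide +kernel)
    · exact U269.diagram (by decide +kernel)
    · exact U270.diagram (by decide +kernel)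
    · exact U271.diagram (by decide +kernel)
    · exact U272.diagram (by decide +kernel)
    · exact U273.diagram (by decide +kernel)
    · exact U274.diagram (by decide +kernel)
    · exact U275.diagram (by decide +kernel)
    · exact U276.diagram (by decide +kernel)
    · exact U277.diagram (by decide +kernel)
    · exact U278.diagram (by decide +kernel)
    · exact U279.diagram (by decide +kernel)
    · exact U280.diagram (by decide +kernel)
    · exact U281.diagram (by decide +kernel)
    · exact U282.diagram (by decide +kernel)
    · exact U283.diagram (by decide +kernel)
    · exact U284.diagram (by decide +kernel)
    · exact U285.diagram (by decide +kernel)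
    · exact U286.diagram (by decide +kernel)
    · exact U287.diagram (by decide +kernel)
    · exact U288.diagram (by decide +kernel)
    · exact U289.diagram (by decide +kernel)
    · exact U290.diagram (by decide +kernel)
    · exact U291.diagram (by decide +kernel)
    · exact U292.diagram (by decide +kernel)
    · exact U293.diagram (by decide +kernel)
    · exact U294.diagram (by decide +kernel)
    · exact U295.diagram (by decide +kernel)
    · exact U296.diagram (by decide +kernel)
    · exact U297.diagram (by decide +kernel)
    · exact U298.diagram (by decide +kernel)
    · exact U299.diagram (by decide +kernel)
    · exact U300.diagram (by decide +kernel)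
    · exact U301.diagram (by decide +kernel)
    · exact U302.diagram (by decide +kernel)
    · exact U303.diagram (by decide +kernel)
    · exact U304.diagram (by decide +kernel)
    · exact U305.diagram (by decide +kernel)
    · exact U306.diagram (by decide +kernel)
    · exact U307.diagram (by decide +kernel)
    · exact U308.diagram (by decide +kernel)
    · exact U309.diagram (by decide +kernel)
    · exact U310.diagram (by decide +kernel)
    · exact U311.diagram (by decide +kernel)
    · exact U312.diagram (by decide +kernel)
    · exact U313.diagram (by decide +kernel)
    · exact U314.diagram (by decide +kernel)
    · exact U315.diagram (by decide +kernel)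
    · exact U316.diagram (by decide +kernel)
    · exact U317.diagram (by decide +kernel)
    · exact U318.diagram (by decide +kernel)
    · exact U319.diagram (by decide +kernel)
    · exact U320.diagram (by decide +kernel)
    · exact U321.diagram (by decide +kernel)
    · exact U322.diagram (by decide +kernel)
    · exact U323.diagram (by decide +kernel)
    · exact U324.diagram (by decide +kernel)
    · exact U325.diagram (by decide +kernel)
    · exact U326.diagram (by decide +kernel)
    · exact U327.diagram (by decide +kernel)
    · exact U328.diagram (by decide +kernel)
    · exact U329.diagram (by decide +kernel)
    · exact U330.diagram (by decide +kernel)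
    · exact U331.diagram (by decide +kernel)
    · exact U332.diagram (by decide +kernel)
    · exact U333.diagram (by decide +kernel)
    · exact U334.diagram (by decide +kernel)
    · exact U335.diagram (by decide +kernel)
    · exact U336.diagram (by decide +kernel)
    · exact U337.diagram (by decide +kernel)
    · exact U338.diagram (by decide +kernel)
    · exact U339.diagram (by decide +kernel)
    · exact U340.diagram (by decide +kernel)
    · exact U341.diagram (by decide +kernel)
    · exact U342.diagram (by decide +kernel)
    · exact U343.diagram (by decide +kernel)
    · exact U344.diagram (by decide +kernel)
    · exact U345.diagram (by decide +kernel)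
    · exact U346.diagram (by decide +kernel)
    · exact U347.diagram (by decide +kernel)
    · exact U348.diagram (by decide +kernel)
    · exact U349.diagram (by decide +kernel)
  · subst h
    exact U350.diagram (by decide +kernel)
  · subst h
    exact U377.diagram (by decide +kernel)
  · subst h
    exact U432.diagram (by decide +kernel)

end Crest.Agent.Saxl.Table.Data
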