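import Crest.Agent.Lib.Saxl.TableCheck
import Crest.Agent.Lib.Saxl.BaseCert

/-!
# Exceptions of a level from Kronecker certificates (row 195, S0298)
-/

set_option autoImplicit false

namespace Crest.Agent.Saxl.Table

open Crest.Agent.Saxl Crest.Agent.Saxl.Family Crest.Agent.Saxl.Kron

theorem hts_eq_conjL (ν : YoungDiagram) : hts ν = (conjL (rowsL ν) : Multiset ℕ) := by
  rw [← rowsL_transpose, hts_eq_colLensL]
  congr 1
  rw [colLensL, rowsL, YoungDiagram.colLen_transpose]
  apply List.map_congr_left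
  intro j _
  rw [YoungDiagram.rowLen_transpose]

/-- **An exception from a Kronecker triple.** -/
theorem labelOcc_of_G {l : List BK} (hg : Good l) {H : List ℕ}
    (hH : (List.range (twidth l)).map (colHL l) = H) (hp : ∀ x ∈ H, 0 < x) {n : ℕ}
    {exc : List (List ℕ)} (hT : ∀ rs ∈ exc, G (conjL rs, H, H)) (ν : YoungDiagram)
    (hν : ν.card = n) (hm : rowsL ν ∈ exc) : LabelOcc (cellsL l) n ν := by
  intro S _ _ hS V _ _ _ ρ hρ hlab
  obtain ⟨T⟩ := exists_tab (S := S) ν (hν.trans hS.symm)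
  have h1 : Real3 (conjL (rowsL ν) : Multiset ℕ) (H : Multiset ℕ) (H : Multiset ℕ) := hT _ hm
  have h2 := hts_toDiagram hg hH hp
  rw [← hts_eq_conjL, ← h2] at h1
  exact occurs_of_real3 T h1 hρ hlab

end Crest.Agent.Saxl.Table
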